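import Vale.Agent.P116.Conf
import Vale.Agent.P116.Primitive

/-!
Brennan graph domains: the conformal map of a box that is vertically convex and symmetric in the
real axis. A reflection shows that it moves towards the origin with the height, and so the
derivative of the Riemann map, times `1 - ζ ^ 2`, has nonnegative real part.
-/

open Complex Metric Filter Set Topology
open scoped Real ComplexConjugate

namespace Vale.Agent.P142.Graph

/-- The box of half width `A` and variable half height `g`. -/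
def box (A : ℝ) (g : ℝ → ℝ) : Set ℂ := {w | |w.re| < A ∧ |w.im| < g w.re}

/-- The standing hypotheses on a box. -/
structure Box (A c : ℝ) (g : ℝ → ℝ) : Prop where
  hA : 0 < A
  hA' : A ≤ 1 / 4
  hc : 0 < c
  low : ∀ x, |x| < A → c ≤ g x
  high : ∀ x, |x| < A → g x ≤ 1 / 2
  isOpen : IsOpen (box A g)

variable {A c : ℝ} {g : ℝ → ℝ}

namespace Box

lemma subset_ball (H : Box A c g) : box A g ⊆ ball 0 1 := by
  rintro w ⟨h1, h2⟩
  rw [mem_ball_zero_iff]
  linarith [norm_le_abs_re_add_abs_im w, H.high _ h1, H.hA']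

lemma mem_real (H : Box A c g) {x : ℝ} (hx : |x| < A) : (x : ℂ) ∈ box A g :=
  ⟨by simpa using hx, by simpa using H.hc.trans_le (H.low x hx)⟩

lemma zero_mem (H : Box A c g) : (0 : ℂ) ∈ box A g := by
  simpa using H.mem_real (x := 0) (by simpa using H.hA)

lemma conj_mem {w : ℂ} (hw : w ∈ box A g) : conj w ∈ box A g := by
  simpa [box] using hw

lemma vert_mem {w : ℂ} (hw : w ∈ box A g) {t : ℝ} (ht : |t| ≤ |w.im|) :
    (⟨w.re, t⟩ : ℂ) ∈ box A g := ⟨hw.1, ht.trans_lt hw.2⟩

lemma isPreconnected (H : Box A c g) : IsPreconnected (box A g) := by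
  refine isPreconnected_of_forall (0 : ℂ) fun w hw => ?_
  refine ⟨segment ℝ (0 : ℂ) (w.re : ℂ) ∪ segment ℝ (w.re : ℂ) w, ?_, Or.inl (left_mem_segment ℝ _ _),
    Or.inr (right_mem_segment ℝ _ _), IsPreconnected.union (w.re : ℂ) (right_mem_segment ℝ _ _)
      (left_mem_segment ℝ _ _) (convex_segment _ _).isPreconnected
      (convex_segment _ _).isPreconnected⟩
  rintro z (hz | hz)
  all_goals
    rw [segment_eq_image'] at hz
    obtain ⟨t, ⟨t0, t1⟩, rfl⟩ := hz
  · have e : (0 : ℂ) + t • ((w.re : ℂ) - 0) = ((t * w.re : ℝ) : ℂ) := by simp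
    show (0 : ℂ) + t • ((w.re : ℂ) - 0) ∈ box A g
    rw [e]
    refine H.mem_real (lt_of_le_of_lt ?_ hw.1)
    rw [abs_mul, abs_of_nonneg t0]
    exact mul_le_of_le_one_left (abs_nonneg _) t1
  · have e : (w.re : ℂ) + t • (w - (w.re : ℂ)) = ⟨w.re, t * w.im⟩ := by
      apply Complex.ext <;> simp
    show (w.re : ℂ) + t • (w - (w.re : ℂ)) ∈ box A g
    rw [e]
    refine vert_mem hw ?_
    rw [abs_mul, abs_of_nonneg t0]
    exact mul_le_of_le_one_left (abs_nonneg _) t1

/-- Every point outside the box moves away from the axis inside the complement. -/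
lemma compl_preconnected (H : Box A c g) : IsPreconnected (box A g)ᶜ := by
  have hout : ∀ z : ℂ, 1 ≤ |z.im| → z ∈ (box A g)ᶜ := fun z hz h => by
    linarith [h.2, H.high _ h.1]
  have hlow : IsPreconnected {z : ℂ | z.im ≤ -1} :=
    (convex_halfSpace_im_le _).isPreconnected
  have hhigh : IsPreconnected {z : ℂ | 1 ≤ z.im} :=
    (convex_halfSpace_im_ge _).isPreconnected
  have hA := H.hA'
  set O : Set ℂ := {z | z.im ≤ -1} ∪ {z | 1 ≤ z.im} ∪ {z | 1 ≤ z.re}
  have hO : IsPreconnected O := by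
    have h1 : IsPreconnected ({z : ℂ | 1 ≤ z.im} ∪ {z | 1 ≤ z.re}) :=
      IsPreconnected.union (⟨1, 1⟩ : ℂ) (show (1 : ℝ) ≤ 1 from le_rfl) (show (1 : ℝ) ≤ 1 from le_rfl)
        hhigh (convex_halfSpace_re_ge _).isPreconnected
    have h2 := IsPreconnected.union (⟨1, -1⟩ : ℂ)
      (show (⟨1, -1⟩ : ℂ) ∈ {z : ℂ | 1 ≤ z.im} ∪ {z | 1 ≤ z.re} from
        Or.inr (show (1 : ℝ) ≤ 1 from le_rfl)) (show (-1 : ℝ) ≤ -1 from le_rfl) h1 hlow
    have : O = ({z : ℂ | 1 ≤ z.im} ∪ {z | 1 ≤ z.re}) ∪ {z | z.im ≤ -1} := by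
      simp only [O]
      ext z
      simp
      tauto
    rwa [this]
  have hOsub : O ⊆ (box A g)ᶜ := by
    rintro z ((hz | hz) | hz) hb
    · exact hout z (le_abs.2 (Or.inr (by linarith [show z.im ≤ -1 from hz]))) hb
    · exact hout z (le_abs.2 (Or.inl hz)) hb
    · linarith [le_abs_self z.re, hb.1, show 1 ≤ z.re from hz]
  refine isPreconnected_of_forall (⟨1, 1⟩ : ℂ) fun z hz => ?_
  set top : ℝ := if 0 ≤ z.im then |z.im| + 1 else -(|z.im| + 1) with htop
  have hmeet : (⟨z.re, top⟩ : ℂ) ∈ O := by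
    simp only [htop, O]
    split_ifs
    · exact Or.inl (Or.inr (show (1 : ℝ) ≤ _ by simp))
    · exact Or.inl (Or.inl (show _ ≤ (-1 : ℝ) by simp))
  refine ⟨O ∪ segment ℝ z ⟨z.re, top⟩, union_subset hOsub ?_, Or.inl (Or.inl (Or.inr (show (1 : ℝ) ≤ 1 from le_rfl))),
    Or.inr (left_mem_segment ℝ _ _), IsPreconnected.union (⟨z.re, top⟩ : ℂ) hmeet
      (right_mem_segment ℝ _ _) hO (convex_segment _ _).isPreconnected⟩
  rw [segment_eq_image']
  rintro _ ⟨t, ⟨t0, t1⟩, rfl⟩ ⟨h1, h2⟩
  simp at h1 h2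
  refine hz ⟨h1, lt_of_le_of_lt ?_ h2⟩
  simp only [htop]
  split_ifs with hs
  · rw [abs_of_nonneg hs]
    refine le_trans ?_ (le_abs_self _)
    nlinarith
  · rw [abs_of_neg (not_le.1 hs)]
    refine le_trans ?_ (neg_le_abs _)
    nlinarith [not_le.1 hs]

/-- A conformal map of the disc onto the box fixing the origin, with positive derivative there. -/
theorem exists_map (H : Box A c g) : ∃ h : ℂ → ℂ, DifferentiableOn ℂ h (ball 0 1) ∧
    InjOn h (ball 0 1) ∧ h '' ball 0 1 = box A g ∧ h 0 = 0 ∧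
    0 < (deriv h 0).re ∧ (deriv h 0).im = 0 := by
  obtain ⟨φ, hd, hi, him⟩ := P116.riemann_core H.isOpen H.subset_ball H.isPreconnected H.zero_mem
    fun G hG hne => P116.exists_sqrt_hol H.isOpen H.isPreconnected H.compl_preconnected
      (fun M => ⟨⟨0, min M 0 - 1⟩, fun h => by
        have h2 := h.2
        simp at h2
        have h3 := H.high 0 (by simpa using H.hA)
        have h4 : min M 0 ≤ 0 := min_le_right _ _
        rw [abs_of_nonpos (by linarith)] at h2
        linarith, by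
          show min M 0 - 1 < M
          linarith [min_le_left M 0]⟩) hG hne
  obtain ⟨b, hb, hb0⟩ := (mem_image _ _ _).1 (him.symm ▸ H.zero_mem)
  have hb' := mem_ball_zero_iff.1 hb
  have hnb : ‖-b‖ < 1 := by rwa [norm_neg]
  set k := fun x => φ (P116.mob (-b) x) with hk
  have hkd : DifferentiableOn ℂ k (ball 0 1) :=
    hd.comp (P116.mob_differentiableOn hnb) (P116.mob_mapsTo hnb)
  have hki : InjOn k (ball 0 1) := fun x hx y hy h =>
    P116.mob_injOn hnb (ball_subset_closedBall hx) (ball_subset_closedBall hy)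
      (hi (P116.mob_mapsTo hnb hx) (P116.mob_mapsTo hnb hy) h)
  have hkim : k '' ball 0 1 = box A g := by
    rw [← him]
    refine Subset.antisymm ?_ ?_
    · rintro _ ⟨x, hx, rfl⟩
      exact mem_image_of_mem _ (P116.mob_mapsTo hnb hx)
    · rintro _ ⟨x, hx, rfl⟩
      refine ⟨P116.mob b x, P116.mob_mapsTo hb' hx, congrArg φ ?_⟩
      have h1 := P116.mob_den hb' (mem_ball_zero_iff.1 hx).le
      have h2 : 1 - conj b * b ≠ 0 := P116.mob_den hb' hb'.le
      simp only [P116.mob, map_neg]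
      have h3 : 1 - -conj b * ((x - b) / (1 - conj b * x)) ≠ 0 := by
        simpa [P116.mob] using P116.mob_den hnb (mem_ball_zero_iff.1 (P116.mob_mapsTo hb' hx)).le
      rw [div_eq_iff h3]
      rw [← sub_eq_zero]
      have e : (x - b) / (1 - conj b * x) - -b -
          x * (1 - -conj b * ((x - b) / (1 - conj b * x)))
          = ((x - b) * (1 - conj b * x) + (b - x) * (1 - conj b * x)) / (1 - conj b * x) := by
        rw [eq_div_iff h1]
        linear_combination (1 - conj b * x) * (div_mul_cancel₀ (x - b) h1)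
      rw [e]
      ring
  have hk0 : k 0 = 0 := by simp [hk, P116.mob, hb0]
  have h0 : (0 : ℂ) ∈ ball (0 : ℂ) 1 := mem_ball_self one_pos
  set d := deriv k 0 with hdd
  have hne : d ≠ 0 := by
    set G := Function.invFunOn k (ball 0 1)
    have hinv := P116.inv_differentiableOn isOpen_ball hkd hki fun x hx => hki.leftInvOn_invFunOn hx
    have hc := (hinv.differentiableAt ((P116.isOpen_image_inj isOpen_ball hkd hki isOpen_ball
      subset_rfl).mem_nhds (mem_image_of_mem k h0))).hasDerivAt.comp 0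
      (hkd.differentiableAt (isOpen_ball.mem_nhds h0)).hasDerivAt
    have hid : G ∘ k =ᶠ[𝓝 0] id :=
      eventually_of_mem (isOpen_ball.mem_nhds h0) fun x hx => hki.leftInvOn_invFunOn hx
    have := (hc.congr_of_eventuallyEq hid.symm).unique (hasDerivAt_id 0)
    exact fun h => by simp [d, h] at this
  set u : ℂ := (‖d‖ : ℂ) / d with hu
  have hun : ‖u‖ = 1 := by simp [hu, hne]
  have hmaps : MapsTo (fun x => u * x) (ball (0 : ℂ) 1) (ball 0 1) := fun x hx => by
    simpa [hun] using hx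
  have hu0 : u ≠ 0 := fun h => by simp [h] at hun
  refine ⟨fun x => k (u * x), hkd.comp ((differentiable_id.const_mul u).differentiableOn) hmaps,
    fun x hx y hy h => mul_left_cancel₀ hu0 (hki (hmaps hx) (hmaps hy) h), ?_, by simp [hk0], ?_⟩
  · rw [← hkim]
    refine Subset.antisymm ?_ ?_
    · rintro _ ⟨x, hx, rfl⟩
      exact mem_image_of_mem _ (hmaps hx)
    · rintro _ ⟨x, hx, rfl⟩
      exact ⟨u⁻¹ * x, by simpa [hun] using hx, by simp [mul_inv_cancel_left₀ hu0]⟩
  · have hder : HasDerivAt (fun x => k (u * x)) (d * u) 0 := by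
      have h1 : HasDerivAt (fun x : ℂ => u * x) u 0 := by
        simpa using (hasDerivAt_id (0 : ℂ)).const_mul u
      have h2 : HasDerivAt k d (u * 0) := by
        rw [mul_zero]
        exact (hkd.differentiableAt (isOpen_ball.mem_nhds h0)).hasDerivAt
      exact h2.comp 0 h1
    rw [hder.deriv, hu, mul_div_cancel₀ _ hne]
    simp [hne]

/-- The chosen conformal map. -/
noncomputable def h (H : Box A c g) : ℂ → ℂ := Classical.choose H.exists_map

/-- Its inverse. -/
noncomputable def ψ (H : Box A c g) : ℂ → ℂ := Function.invFunOn H.h (ball 0 1)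

variable (H : Box A c g)

lemma h_diff : DifferentiableOn ℂ H.h (ball 0 1) := (Classical.choose_spec H.exists_map).1

lemma h_inj : InjOn H.h (ball 0 1) := (Classical.choose_spec H.exists_map).2.1

lemma h_image : H.h '' ball 0 1 = box A g := (Classical.choose_spec H.exists_map).2.2.1

lemma h_zero : H.h 0 = 0 := (Classical.choose_spec H.exists_map).2.2.2.1

lemma h_deriv_zero : 0 < (deriv H.h 0).re ∧ (deriv H.h 0).im = 0 :=
  (Classical.choose_spec H.exists_map).2.2.2.2

lemma h_mem {x : ℂ} (hx : x ∈ ball (0 : ℂ) 1) : H.h x ∈ box A g :=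
  H.h_image ▸ mem_image_of_mem _ hx

lemma ψ_h {x : ℂ} (hx : x ∈ ball (0 : ℂ) 1) : H.ψ (H.h x) = x := H.h_inj.leftInvOn_invFunOn hx

lemma ψ_mem {w : ℂ} (hw : w ∈ box A g) : H.ψ w ∈ ball (0 : ℂ) 1 :=
  Function.invFunOn_mem (H.h_image.symm ▸ hw : w ∈ H.h '' ball 0 1)

lemma h_ψ {w : ℂ} (hw : w ∈ box A g) : H.h (H.ψ w) = w :=
  Function.invFunOn_eq (H.h_image.symm ▸ hw : w ∈ H.h '' ball 0 1)

lemma ψ_diff : DifferentiableOn ℂ H.ψ (box A g) := by
  rw [← H.h_image]
  exact P116.inv_differentiableOn isOpen_ball H.h_diff H.h_inj fun x hx => H.ψ_h hx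

lemma ψ_ne {w : ℂ} (hw : w ∈ box A g) (h0 : w ≠ 0) : H.ψ w ≠ 0 := fun h =>
  h0 (by rw [← H.h_ψ hw, h, H.h_zero])

lemma deriv_mul {x : ℂ} (hx : x ∈ ball (0 : ℂ) 1) :
    deriv H.ψ (H.h x) * deriv H.h x = 1 := by
  have hc := (H.ψ_diff.differentiableAt (H.isOpen.mem_nhds (H.h_mem hx))).hasDerivAt.comp x
    (H.h_diff.differentiableAt (isOpen_ball.mem_nhds hx)).hasDerivAt
  exact (hc.congr_of_eventuallyEq (EventuallyEq.symm (eventually_of_mem
    (isOpen_ball.mem_nhds hx) fun y hy => H.ψ_h hy))).unique (hasDerivAt_id x)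

lemma deriv_ne {x : ℂ} (hx : x ∈ ball (0 : ℂ) 1) : deriv H.h x ≠ 0 := fun h => by
  simpa [h] using H.deriv_mul hx

/-- The map commutes with conjugation. -/
theorem h_conj {x : ℂ} (hx : x ∈ ball (0 : ℂ) 1) : H.h (conj x) = conj (H.h x) := by
  have hcm : MapsTo (fun y : ℂ => conj y) (ball (0 : ℂ) 1) (ball 0 1) := fun y hy => by
    simpa using hy
  set k := fun y => H.ψ (conj (H.h (conj y))) with hk
  have hkd : DifferentiableOn ℂ k (ball 0 1) := by
    intro y hy
    have h1 : DifferentiableAt ℂ (conj ∘ H.h ∘ conj) y := by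
      have := (H.h_diff.differentiableAt (isOpen_ball.mem_nhds (hcm hy))).conj_conj
      simpa using this
    exact ((H.ψ_diff.differentiableAt (H.isOpen.mem_nhds (conj_mem (H.h_mem (hcm hy))))).comp y
      h1).differentiableWithinAt
  have hm : MapsTo k (ball 0 1) (closedBall 0 1) := fun y hy =>
    ball_subset_closedBall (H.ψ_mem (conj_mem (H.h_mem (hcm hy))))
  have hψ0 : H.ψ 0 = 0 := by
    have := H.ψ_h (mem_ball_self one_pos)
    rwa [H.h_zero] at this
  have hk0 : k 0 = 0 := by simp [hk, H.h_zero, hψ0]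
  have hdk : deriv k 0 = 1 := by
    have h0 : (0 : ℂ) ∈ ball (0 : ℂ) 1 := mem_ball_self one_pos
    have h1 : HasDerivAt (conj ∘ H.h ∘ conj) (conj (deriv H.h 0)) 0 := by
      simpa using (H.h_diff.differentiableAt (isOpen_ball.mem_nhds h0)).hasDerivAt.conj_conj
    have hre : conj (deriv H.h 0) = deriv H.h 0 := conj_eq_iff_im.2 H.h_deriv_zero.2
    rw [hre] at h1
    have h2 : HasDerivAt H.ψ (deriv H.ψ (H.h 0)) ((conj ∘ H.h ∘ conj) 0) := by
      simp only [Function.comp, map_zero, H.h_zero]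
      exact (H.ψ_diff.differentiableAt (H.isOpen.mem_nhds H.zero_mem)).hasDerivAt
    exact (h2.comp 0 h1).deriv.trans (H.deriv_mul h0)
  have he := affine_of_mapsTo_ball_of_norm_dslope_eq_div hkd (by rwa [hk0])
    (mem_ball_self one_pos) (by rw [dslope_same, hdk]; simp) (hcm hx)
  simp only [smul_eq_mul, hk0, dslope_same, hdk, zero_add, sub_zero, mul_one] at he
  simp only [hk, Complex.conj_conj] at he
  have := congrArg H.h he
  rw [H.h_ψ (conj_mem (H.h_mem hx))] at this
  exact this.symm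

lemma ψ_conj {w : ℂ} (hw : w ∈ box A g) : H.ψ (conj w) = conj (H.ψ w) := by
  conv_lhs => rw [← H.h_ψ hw, ← H.h_conj (H.ψ_mem hw)]
  exact H.ψ_h (by simpa using H.ψ_mem hw)

/-- Reflection in a horizontal line below the axis moves a point towards the origin of the disc. -/
theorem reflect {c' : ℝ} (hc' : c' < 0) {w : ℂ} (hw : w ∈ box A g) (hwc : w.im < c') :
    ‖H.ψ (conj w + 2 * c' * I)‖ ≤ ‖H.ψ w‖ := by
  set σ : ℂ → ℂ := fun z => conj z + 2 * c' * I with hσ
  have hσm : ∀ z ∈ box A g, z.im ≤ c' → σ z ∈ box A g := by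
    intro z hz hzc
    have e : σ z = ⟨z.re, -z.im + 2 * c'⟩ := by
      apply Complex.ext <;> simp [hσ]
    rw [e]
    refine vert_mem hz ?_
    rw [abs_of_neg (show z.im < 0 by linarith), abs_le]
    constructor <;> linarith
  set R : ℂ → ℂ := fun z => conj (H.ψ (σ z)) / H.ψ z with hR
  have hRd : ∀ z ∈ box A g, z.im ≤ c' → DifferentiableAt ℂ R z := by
    intro z hz hzc
    have h1 : DifferentiableAt ℂ (fun y => H.ψ (y + 2 * c' * I)) (conj z) :=
      DifferentiableAt.comp (g := H.ψ) (f := fun y : ℂ => y + 2 * c' * I) _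
        (H.ψ_diff.differentiableAt (H.isOpen.mem_nhds (hσm z hz hzc)))
        (differentiableAt_id.add_const _)
    have h2 : DifferentiableAt ℂ (fun y => conj (H.ψ (σ y))) z := by
      have := h1.conj_conj
      simpa [hσ, Function.comp_def] using this
    exact h2.div (H.ψ_diff.differentiableAt (H.isOpen.mem_nhds hz))
      (H.ψ_ne hz fun h => by rw [h, zero_im] at hzc; linarith)
  suffices ∀ r : ℝ, ‖H.ψ w‖ < r → r < 1 → ‖R w‖ ≤ 1 / r by
    have hψw := mem_ball_zero_iff.1 (H.ψ_mem hw)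
    have hle : ‖R w‖ ≤ 1 := by
      refine le_of_forall_gt_imp_ge_of_dense fun a ha => ?_
      set r := max (1 / a) ((‖H.ψ w‖ + 1) / 2) with hr
      have ha0 : (0 : ℝ) < a := by linarith
      have hr1 : r < 1 := max_lt (by rw [div_lt_one ha0]; exact ha) (by linarith)
      refine (this r (lt_max_of_lt_right (by linarith)) hr1).trans ?_
      rw [div_le_iff₀ (lt_max_of_lt_left (by positivity))]
      calc (1 : ℝ) = a * (1 / a) := by field_simp
        _ ≤ _ := by gcongr; exact le_max_left _ _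
    have hne : (0 : ℝ) < ‖H.ψ w‖ := norm_pos_iff.2 (H.ψ_ne hw fun h => by
      rw [h, zero_im] at hwc; linarith)
    rw [hR, norm_div, div_le_one hne, norm_conj] at hle
    exact hle
  intro r hrw hr1
  have hr0 : 0 < r := lt_of_le_of_lt (norm_nonneg _) hrw
  set V : Set ℂ := (H.h '' ball 0 r) ∩ {z | z.im < c'} with hV
  have hK : IsCompact (H.h '' closedBall 0 r) := (isCompact_closedBall 0 r).image_of_continuousOn
    (H.h_diff.continuousOn.mono (closedBall_subset_ball hr1))
  have hcl : closure V ⊆ (H.h '' closedBall 0 r) ∩ {z | z.im ≤ c'} :=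
    closure_minimal (inter_subset_inter (image_mono ball_subset_closedBall)
      fun z hz => le_of_lt (show z.im < c' from hz))
      (hK.isClosed.inter (isClosed_le continuous_im continuous_const))
  have hclb : closure V ⊆ {z | z ∈ box A g ∧ z.im ≤ c'} := fun z hz => by
    obtain ⟨⟨x, hx, rfl⟩, h2⟩ := hcl hz
    exact ⟨H.h_mem (closedBall_subset_ball hr1 hx), h2⟩
  have hd : DiffContOnCl ℂ R V := DifferentiableOn.diffContOnCl fun z hz =>
    (hRd z (hclb hz).1 (hclb hz).2).differentiableWithinAt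
  refine norm_le_of_forall_mem_frontier_norm_le
    (hK.isBounded.subset (inter_subset_left.trans (image_mono ball_subset_closedBall))) hd
    (fun z hz => ?_) (subset_closure ⟨⟨H.ψ w, mem_ball_zero_iff.2 hrw, H.h_ψ hw⟩, hwc⟩)
  have hVo : IsOpen V := (P116.isOpen_image_inj isOpen_ball H.h_diff H.h_inj isOpen_ball
    (ball_subset_ball hr1.le)).inter (isOpen_lt continuous_im continuous_const)
  rw [hVo.frontier_eq] at hz
  obtain ⟨⟨x, hx, hxz⟩, hzc⟩ := hcl hz.1
  have hzb := (hclb hz.1).1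
  have hne : H.ψ z ≠ 0 := H.ψ_ne hzb fun h => by
    rw [mem_ofPred_eq, h, zero_im] at hzc
    linarith
  rw [hR, norm_div, norm_conj]
  rcases (show z.im ≤ c' from hzc).lt_or_eq with hlt | heq
  · have hxr : ‖x‖ = r := by
      refine le_antisymm (mem_closedBall_zero_iff.1 hx) (not_lt.1 fun hlt' => hz.2 ?_)
      exact ⟨⟨x, mem_ball_zero_iff.2 hlt', hxz⟩, hlt⟩
    have : H.ψ z = x := by rw [← hxz, H.ψ_h (closedBall_subset_ball hr1 hx)]
    rw [this, hxr]
    gcongr
    exact (mem_ball_zero_iff.1 (H.ψ_mem (hσm z hzb hlt.le))).le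
  · have : σ z = z := by apply Complex.ext <;> simp [hσ, heq]; linarith
    rw [this, div_self (norm_pos_iff.2 hne).ne', le_div_iff₀ hr0]
    linarith

/-- Below the axis the inverse map shrinks with the height. -/
theorem sign_ψ {w : ℂ} (hw : w ∈ box A g) (hwi : w.im < 0) :
    0 ≤ (conj (H.ψ w) * deriv H.ψ w).im := by
  set F : ℝ → ℝ := fun y => ‖H.ψ ⟨w.re, y⟩‖ ^ 2 with hF
  have hanti : AntitoneOn F (Icc w.im 0 \ {0}) := by
    rintro y₁ ⟨hy₁, hn₁⟩ y₂ ⟨hy₂, hn₂⟩ hle
    simp only [mem_singleton_iff] at hn₁ hn₂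
    rcases hle.lt_or_eq with hlt | rfl
    swap; · rfl
    have h2 : y₂ < 0 := lt_of_le_of_ne hy₂.2 hn₂
    have hmem : (⟨w.re, y₁⟩ : ℂ) ∈ box A g := vert_mem hw (by
      rw [abs_of_nonpos (by linarith), abs_of_neg hwi]
      linarith [hy₁.1])
    have := H.reflect (c' := (y₁ + y₂) / 2) (by linarith) hmem
      (show y₁ < (y₁ + y₂) / 2 by linarith)
    have e : conj (⟨w.re, y₁⟩ : ℂ) + 2 * ((y₁ + y₂) / 2 : ℝ) * I = ⟨w.re, y₂⟩ := by
      apply Complex.ext <;> simp
      ring
    rw [e] at this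
    simp only [hF]
    gcongr
  have hd : HasDerivAt F (2 * inner ℝ (H.ψ w) (deriv H.ψ w * I)) w.im := by
    have h1 : HasDerivAt (fun y : ℝ => (⟨w.re, y⟩ : ℂ)) I w.im := by
      have := ((hasDerivAt_id w.im).ofReal_comp.mul_const I).const_add (w.re : ℂ)
      simp only [ofReal_one, one_mul, id] at this
      exact this.congr_of_eventuallyEq (.of_forall fun y => by apply Complex.ext <;> simp)
    exact ((H.ψ_diff.differentiableAt (H.isOpen.mem_nhds hw)).hasDerivAt.comp w.im h1).norm_sq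
  have hu : UniqueDiffWithinAt ℝ (Icc w.im 0 \ {0}) w.im := by
    rw [show Icc w.im 0 \ {0} = Ico w.im 0 from Icc_sdiff_right]
    exact uniqueDiffOn_Ico w.im 0 w.im ⟨le_rfl, hwi⟩
  have h := hanti.derivWithin_nonpos (x := w.im)
  rw [hd.hasDerivWithinAt.derivWithin hu] at h
  simp [Complex.inner] at h
  simp
  linarith

/-- The sign of the imaginary part is that of the image. -/
lemma im_sign {x : ℂ} (hx : x ∈ ball (0 : ℂ) 1) (hxi : x.im < 0) : (H.h x).im < 0 := by
  set S : Set ℂ := ball 0 1 ∩ {z | z.im < 0} with hS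
  have hSp : IsPreconnected S :=
    ((convex_ball _ _).inter (convex_halfSpace_im_lt 0)).isPreconnected
  have hcont : ContinuousOn (fun z => (H.h z).im) S :=
    continuous_im.comp_continuousOn (H.h_diff.continuousOn.mono inter_subset_left)
  have hne : ∀ z ∈ S, (H.h z).im ≠ 0 := by
    rintro z ⟨hz, hzi⟩ h0
    have hc : conj (H.h z) = H.h z := conj_eq_iff_im.2 h0
    rw [← H.h_conj hz] at hc
    have := H.h_inj (show conj z ∈ ball (0 : ℂ) 1 by simpa using hz) hz hc
    exact (show z.im < 0 from hzi).ne (conj_eq_iff_im.1 this)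
  -- near the origin the sign is the right one
  have hd : HasDerivAt (fun y : ℝ => (H.h ((y : ℂ) * I)).im) (deriv H.h 0).re 0 := by
    have h1 : HasDerivAt (fun y : ℝ => (y : ℂ) * I) I 0 := by
      simpa using (hasDerivAt_id (0 : ℝ)).ofReal_comp.mul_const I
    have h2 : HasDerivAt H.h (deriv H.h 0) (((0 : ℝ) : ℂ) * I) := by
      simpa using (H.h_diff.differentiableAt (isOpen_ball.mem_nhds (mem_ball_self one_pos))).hasDerivAt
    have := imCLM.hasFDerivAt.comp_hasDerivAt (0 : ℝ) (h2.comp 0 h1)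
    simpa [Function.comp_def] using this
  obtain ⟨y, hy, hyS, hyn⟩ : ∃ y : ℝ, y < 0 ∧ (y : ℂ) * I ∈ S ∧ (H.h ((y : ℂ) * I)).im < 0 := by
    have hev := (hasDerivAt_iff_tendsto_slope.1 hd).eventually (lt_mem_nhds H.h_deriv_zero.1)
    have hev' : ∀ᶠ y in 𝓝[<] (0 : ℝ),
        0 < slope (fun y : ℝ => (H.h ((y : ℂ) * I)).im) 0 y :=
      hev.filter_mono (nhdsWithin_mono _ fun y (hy : y < (0 : ℝ)) => hy.ne)
    obtain ⟨y, ⟨h1, h2⟩⟩ := (hev'.and (Ioo_mem_nhdsLT (show (-1 : ℝ) < 0 by norm_num))).exists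
    refine ⟨y, h2.2, ⟨by simpa [abs_of_neg h2.2] using (neg_lt.1 h2.1),
      by simpa using h2.2⟩, ?_⟩
    rw [slope_def_field] at h1
    simp [H.h_zero] at h1
    rcases div_pos_iff.1 h1 with h | h
    · linarith [h.2, h2.2]
    · exact h.1
  by_contra hcon
  obtain ⟨z, hz, hz0⟩ := hSp.intermediate_value hyS ⟨hx, hxi⟩ hcont
    ⟨hyn.le, not_lt.1 hcon⟩
  exact hne z hz hz0

/-- The real part of `(1 - x ^ 2) h'(x)` is nonnegative. -/
theorem re_nonneg {x : ℂ} (hx : x ∈ ball (0 : ℂ) 1) :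
    0 ≤ ((1 - x ^ 2) * deriv H.h x).re := by
  have hlow : ∀ z ∈ ball (0 : ℂ) 1, z.im < 0 → (z * deriv H.h z).im ≤ 0 := by
    intro z hz hzi
    have h := H.sign_ψ (H.h_mem hz) (H.im_sign hz hzi)
    rw [H.ψ_h hz, show deriv H.ψ (H.h z) = (deriv H.h z)⁻¹ from
      eq_inv_of_mul_eq_one_left (H.deriv_mul hz)] at h
    have hn : 0 < normSq (deriv H.h z) := normSq_pos.2 (H.deriv_ne hz)
    simp [inv_re, inv_im] at h ⊢
    have e : z.re * (-(deriv H.h z).im / normSq (deriv H.h z)) +
        -(z.im * ((deriv H.h z).re / normSq (deriv H.h z)))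
        = -(z.re * (deriv H.h z).im + z.im * (deriv H.h z).re) / normSq (deriv H.h z) := by ring
    have h' : 0 ≤ -(z.re * (deriv H.h z).im + z.im * (deriv H.h z).re) / normSq (deriv H.h z) := by
      rw [← e]
      linarith
    rw [le_div_iff₀ hn] at h'
    linarith
  have hreal : ∀ z ∈ ball (0 : ℂ) 1, deriv H.h (conj z) = conj (deriv H.h z) := by
    intro z hz
    have h1 := (H.h_diff.differentiableAt (isOpen_ball.mem_nhds hz)).hasDerivAt.conj_conj
    have hm : conj z ∈ ball (0 : ℂ) 1 := by simpa using hz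
    refine (h1.congr_of_eventuallyEq (eventually_of_mem (isOpen_ball.mem_nhds hm)
      fun y hy => ?_)).deriv
    simp [H.h_conj hy]
  have hsgn : ∀ z ∈ ball (0 : ℂ) 1, 0 ≤ z.im * (z * deriv H.h z).im := by
    intro z hz
    rcases lt_trichotomy z.im 0 with h | h | h
    · exact mul_nonneg_of_nonpos_of_nonpos h.le (hlow z hz h)
    · simp [h]
    · have hm : conj z ∈ ball (0 : ℂ) 1 := by simpa using hz
      have := hlow (conj z) hm (by simpa using h)
      rw [hreal z hz, ← map_mul, conj_im] at this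
      exact mul_nonneg h.le (by linarith)
  -- the dilated function, on the closed disc
  suffices ∀ r : ℝ, 0 < r → r < 1 → 0 ≤ ((1 - x ^ 2) * deriv H.h (r * x)).re by
    have hc : ContinuousAt (fun r : ℝ => ((1 - x ^ 2) * deriv H.h (r * x)).re) 1 := by
      have h1 : ContinuousAt (deriv H.h) (((1 : ℝ) : ℂ) * x) := by
        simpa using ((H.h_diff.deriv isOpen_ball).continuousOn.continuousAt
          (isOpen_ball.mem_nhds hx))
      exact continuous_re.continuousAt.comp (continuousAt_const.mul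
        (ContinuousAt.comp (g := deriv H.h) (f := fun r : ℝ => (r : ℂ) * x) h1 (by fun_prop)))
    have := ge_of_tendsto (hc.tendsto.mono_left (nhdsWithin_le_nhds (s := Iio 1)))
      (eventually_of_mem (Ioo_mem_nhdsLT (show (0 : ℝ) < 1 by norm_num)) fun r hr => this r hr.1 hr.2)
    simpa using this
  intro r hr0 hr1
  have hmem : ∀ z : ℂ, ‖z‖ ≤ 1 → (r : ℂ) * z ∈ ball (0 : ℂ) 1 := fun z hz => by
    rw [mem_ball_zero_iff, norm_mul, norm_real, Real.norm_of_nonneg hr0.le]
    nlinarith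
  set G : ℂ → ℂ := fun z => exp (-((1 - z ^ 2) * deriv H.h (r * z))) with hG
  have hGd : DiffContOnCl ℂ G (ball 0 1) := by
    refine DifferentiableOn.diffContOnCl ?_
    rw [closure_ball _ one_ne_zero]
    intro z hz
    have := ((H.h_diff.deriv isOpen_ball).differentiableAt
      (isOpen_ball.mem_nhds (hmem z (mem_closedBall_zero_iff.1 hz)))).comp z
      (differentiableAt_id.const_mul (r : ℂ))
    exact ((((differentiableAt_id.pow 2).const_sub 1).mul this).neg.cexp).differentiableWithinAt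
  have hle := norm_le_of_forall_mem_frontier_norm_le isBounded_ball hGd (C := 1) (fun z hz => by
    rw [frontier_ball _ one_ne_zero, mem_sphere_zero_iff_norm] at hz
    simp only [hG, norm_exp]
    rw [Real.exp_le_one_iff, neg_re, neg_nonpos]
    have hs := hsgn _ (hmem z hz.le)
    have hz1 : z * conj z = 1 := by rw [mul_conj, normSq_eq_norm_sq, hz]; simp
    have e : (1 - z ^ 2) * deriv H.h (r * z)
        = (conj z - z) * ((r * z) * deriv H.h (r * z)) / r := by
      rw [eq_div_iff (ofReal_ne_zero.2 hr0.ne')]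
      linear_combination (-(r : ℂ) * deriv H.h (r * z)) * hz1
    have e2 : conj z - z = ((-2 * z.im : ℝ) : ℂ) * I := by
      apply Complex.ext <;> simp
      ring
    rw [e, e2, div_ofReal_re, mul_assoc, re_ofReal_mul, I_mul_re]
    have : (r * z : ℂ).im = r * z.im := by simp
    rw [this] at hs
    refine div_nonneg ?_ hr0.le
    nlinarith) (subset_closure hx)
  simp only [hG, norm_exp, Real.exp_le_one_iff, neg_re, neg_nonpos] at hle
  exact hle

end Box

end Vale.Agent.P142.Graph
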