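import Vale.Agent.P142.Graph.Herglotz
import Vale.Agent.P142.Graph.Box
import Vale.Agent.P116.Area

/-!
Brennan graph domains: the derivative of the map of a box onto the disc lies in every Lebesgue
class of exponent below four.
-/

open Complex Metric Filter Set Topology MeasureTheory
open scoped Real ENNReal ComplexConjugate

namespace Vale.Agent.P142.Graph

variable {A c : ℝ} {g : ℝ → ℝ}

theorem Box.area (H : Box A c g) {σ : ℝ} (hσ : σ ∈ Ioo (2 : ℝ) 4) :
    ∫⁻ w in box A g, ENNReal.ofReal (‖deriv H.ψ w‖ ^ σ) < ⊤ := by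
  set q : ℂ → ℂ := fun x => ((1 - x ^ 2) * deriv H.h x)⁻¹ with hq
  have hne1 : ∀ x ∈ ball (0 : ℂ) 1, (1 - x ^ 2) ≠ 0 := fun x hx h => by
    have := congrArg norm (sub_eq_zero.1 h)
    rw [norm_one, norm_pow] at this
    nlinarith [mem_ball_zero_iff.1 hx, norm_nonneg x]
  have hqd : DifferentiableOn ℂ q (ball 0 1) :=
    (((differentiableOn_id.pow 2).const_sub 1).mul (H.h_diff.deriv isOpen_ball)).inv
      fun x hx => mul_ne_zero (hne1 x hx) (H.deriv_ne hx)
  have hre : ∀ x ∈ ball (0 : ℂ) 1, 0 ≤ (q x).re := fun x hx => by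
    simp only [hq, inv_re]
    exact div_nonneg (H.re_nonneg hx) (normSq_nonneg _)
  have hqne : ∀ x ∈ ball (0 : ℂ) 1, q x ≠ 0 := fun x hx =>
    inv_ne_zero (mul_ne_zero (hne1 x hx) (H.deriv_ne hx))
  have h0 : 0 < (q 0).re := by
    simp only [hq, zero_pow two_ne_zero, sub_zero, one_mul, inv_re]
    exact div_pos H.h_deriv_zero.1 (normSq_pos.2 (H.deriv_ne (mem_ball_self one_pos)))
  have hp : σ - 2 ∈ Ioo (0 : ℝ) 2 := ⟨by linarith [hσ.1], by linarith [hσ.2]⟩
  have hfin := herglotz_area hp hqd hre hqne h0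
  have hd : ∀ x ∈ ball (0 : ℂ) 1, HasFDerivWithinAt H.h
      ((ContinuousLinearMap.toSpanSingleton ℂ (deriv H.h x)).restrictScalars ℝ) (ball 0 1) x :=
    fun x hx => ((H.h_diff.differentiableAt (isOpen_ball.mem_nhds hx)).hasDerivAt.hasFDerivAt
      |>.restrictScalars ℝ).hasFDerivWithinAt
  conv_lhs => rw [← H.h_image]
  rw [lintegral_image_eq_lintegral_abs_det_fderiv_mul volume measurableSet_ball hd H.h_inj]
  refine lt_of_le_of_lt (setLIntegral_mono' measurableSet_ball fun x hx => ?_)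
    (lt_of_eq_of_lt (lintegral_const_mul' (ENNReal.ofReal (2 ^ (σ - 2))) _ ENNReal.ofReal_ne_top)
      (ENNReal.mul_lt_top ENNReal.ofReal_lt_top hfin))
  rw [P116.det_mul_left, abs_of_nonneg (normSq_nonneg _), ← ENNReal.ofReal_mul (normSq_nonneg _),
    ← ENNReal.ofReal_mul (by positivity)]
  refine ENNReal.ofReal_le_ofReal ?_
  have hpos : 0 < ‖deriv H.h x‖ := norm_pos_iff.2 (H.deriv_ne hx)
  have e : ‖deriv H.ψ (H.h x)‖ = ‖deriv H.h x‖⁻¹ := by
    rw [show deriv H.ψ (H.h x) = (deriv H.h x)⁻¹ from eq_inv_of_mul_eq_one_left (H.deriv_mul hx),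
      norm_inv]
  rw [e, normSq_eq_norm_sq, show σ = (σ - 2) + 2 by ring, Real.rpow_add (inv_pos.2 hpos),
    show σ - 2 + 2 - 2 = σ - 2 by ring, Real.rpow_two]
  have h1 : ‖deriv H.h x‖⁻¹ = ‖1 - x ^ 2‖ * ‖q x‖ := by
    rw [← norm_mul, ← norm_inv]
    congr 1
    simp only [hq]
    field_simp [hne1 x hx]
  calc ‖deriv H.h x‖ ^ 2 * (‖deriv H.h x‖⁻¹ ^ (σ - 2) * ‖deriv H.h x‖⁻¹ ^ 2)
      = ‖deriv H.h x‖⁻¹ ^ (σ - 2) := by field_simp
    _ ≤ (2 * ‖q x‖) ^ (σ - 2) := by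
        refine Real.rpow_le_rpow (by positivity) ?_ hp.1.le
        rw [h1]
        gcongr
        refine (norm_sub_le _ _).trans ?_
        rw [norm_one, norm_pow]
        nlinarith [mem_ball_zero_iff.1 hx, norm_nonneg x]
    _ = _ := Real.mul_rpow (by norm_num) (norm_nonneg _)

end Vale.Agent.P142.Graph
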