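import Mathlib

/-!
Brennan graph domains: functions of nonnegative real part on the disc are integrable to every
power below two.
-/

open Complex MeasureTheory Metric Set Filter
open scoped Real ENNReal ComplexConjugate

namespace Vale.Agent.P142.Graph

variable {q : ℂ → ℂ}

lemma re_add_pos {a b : ℂ} (ha : 0 ≤ a.re) (hb : 0 < b.re) : a + conj b ≠ 0 := by
  intro h
  have := congrArg re h
  simp at this
  linarith

/-- The elementary Harnack bound. -/
theorem growth (hq : DifferentiableOn ℂ q (ball 0 1)) (hre : ∀ z ∈ ball (0 : ℂ) 1, 0 ≤ (q z).re)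
    (h0 : 0 < (q 0).re) {z : ℂ} (hz : ‖z‖ < 1) : ‖q z‖ ≤ 2 * ‖q 0‖ / (1 - ‖z‖) := by
  set b := q 0 with hb
  set T : ℂ → ℂ := fun x => (q x - b) / (q x + conj b) with hT
  have hd : DifferentiableOn ℂ T (ball 0 1) :=
    (hq.sub_const b).div (hq.add_const _) fun x hx => re_add_pos (hre x hx) h0
  have hm : MapsTo T (ball 0 1) (closedBall 0 1) := by
    intro x hx
    have hne := norm_pos_iff.2 (re_add_pos (hre x hx) h0)
    rw [mem_closedBall_zero_iff, hT]
    simp only
    rw [norm_div, div_le_one hne, ← sq_le_sq₀ (norm_nonneg _) (norm_nonneg _),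
      ← normSq_eq_norm_sq, ← normSq_eq_norm_sq]
    simp [normSq_apply]
    nlinarith [mul_nonneg (hre x hx) h0.le]
  have h := norm_le_norm_of_mapsTo_ball hd hm (by simp [hT, hb]) hz
  have hne := norm_pos_iff.2 (re_add_pos (hre z (mem_ball_zero_iff.2 hz)) h0)
  rw [hT] at h
  simp only [norm_div] at h
  rw [div_le_iff₀ hne] at h
  have h1 : ‖q z + conj b‖ ≤ ‖q z‖ + ‖b‖ := (norm_add_le _ _).trans (by rw [norm_conj])
  have h2 : ‖q z‖ - ‖b‖ ≤ ‖q z - b‖ := norm_sub_norm_le _ _
  rw [le_div_iff₀ (by linarith)]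
  nlinarith [norm_nonneg b, norm_nonneg z, norm_nonneg (q z)]

/-- The circular mean of a power below one. -/
theorem mean_rpow {a : ℝ} (ha : a ∈ Ioo (0 : ℝ) 1) (hq : DifferentiableOn ℂ q (ball 0 1))
    (hre : ∀ z ∈ ball (0 : ℂ) 1, 0 ≤ (q z).re) (hne : ∀ z ∈ ball (0 : ℂ) 1, q z ≠ 0)
    {r : ℝ} (hr : r ∈ Ico (0 : ℝ) 1) :
    ∫⁻ θ in Ioo (-π) π, ENNReal.ofReal (‖q (circleMap 0 r θ)‖ ^ a)
      ≤ ENNReal.ofReal (2 * π * ‖q 0‖ ^ a / Real.cos (a * (π / 2))) := by
  set k : ℂ → ℂ := fun z => q z ^ (a : ℂ) with hk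
  have hslit : ∀ z ∈ ball (0 : ℂ) 1, q z ∈ slitPlane := by
    intro z hz
    rcases (hre z hz).lt_or_eq with h | h
    · exact Or.inl h
    · exact Or.inr fun h' => hne z hz (Complex.ext h.symm (by simpa using h'))
  have hkd : DifferentiableOn ℂ k (ball 0 1) := hq.cpow_const hslit
  have hsub : closedBall (0 : ℂ) r ⊆ ball 0 1 := closedBall_subset_ball hr.2
  have hav : Real.circleAverage k 0 r = k 0 :=
    circleAverage_of_differentiable_on_off_countable countable_empty
      (hkd.continuousOn.mono (by rw [abs_of_nonneg hr.1]; exact hsub))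
      fun z hz => hkd.differentiableAt (isOpen_ball.mem_nhds (hsub (ball_subset_closedBall
        (by rw [abs_of_nonneg hr.1] at hz; exact hz.1))))
  have hmem : ∀ θ, circleMap 0 r θ ∈ ball (0 : ℂ) 1 := fun θ => by
    simp [abs_of_nonneg hr.1, hr.2]
  have hkc : Continuous fun θ => k (circleMap 0 r θ) :=
    hkd.continuousOn.comp_continuous (continuous_circleMap 0 r) hmem
  have hint : ∫ θ in (-π)..π, (k (circleMap 0 r θ)).re = 2 * π * (k 0).re := by
    have hper : Function.Periodic (fun θ => (k (circleMap 0 r θ)).re) (2 * π) :=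
      fun θ => by simp [periodic_circleMap 0 r θ]
    have h2 := hper.intervalIntegral_add_eq (-π) 0
    rw [show -π + 2 * π = π by ring, zero_add] at h2
    rw [h2]
    have h3 : ∫ θ in (0 : ℝ)..2 * π, k (circleMap 0 r θ) = (2 * π) • k 0 := by
      rw [← hav, Real.circleAverage_def, smul_smul, mul_inv_cancel₀ (by positivity), one_smul]
    have h4 := reCLM.intervalIntegral_comp_comm (a := (0 : ℝ)) (b := 2 * π)
      (μ := volume) (hkc.intervalIntegrable 0 (2 * π))
    simp only [reCLM_apply] at h4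
    rw [h4, h3]
    simp
  set κ := Real.cos (a * (π / 2)) with hκ
  have hκ0 : 0 < κ := Real.cos_pos_of_mem_Ioo
    ⟨by nlinarith [Real.pi_pos, ha.1], by nlinarith [Real.pi_pos, ha.2]⟩
  have hpt : ∀ θ, ‖q (circleMap 0 r θ)‖ ^ a ≤ (k (circleMap 0 r θ)).re / κ := by
    intro θ
    rw [le_div_iff₀ hκ0, hk]
    simp only
    rw [cpow_ofReal_re]
    refine mul_le_mul_of_nonneg_left ?_ (by positivity)
    rw [← Real.cos_abs (arg _ * a), hκ]
    have h1 := abs_arg_le_pi_div_two_iff.2 (hre _ (hmem θ))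
    refine Real.cos_le_cos_of_nonneg_of_le_pi (abs_nonneg _)
      (by nlinarith [Real.pi_pos, ha.1, ha.2]) ?_
    rw [abs_mul, abs_of_pos ha.1, mul_comm]
    exact mul_le_mul_of_nonneg_left h1 ha.1.le
  have hc : Continuous fun θ => (k (circleMap 0 r θ)).re / κ :=
    (continuous_re.comp hkc).div_const _
  calc ∫⁻ θ in Ioo (-π) π, ENNReal.ofReal (‖q (circleMap 0 r θ)‖ ^ a)
      ≤ ∫⁻ θ in Ioo (-π) π, ENNReal.ofReal ((k (circleMap 0 r θ)).re / κ) :=
        lintegral_mono fun θ => ENNReal.ofReal_le_ofReal (hpt θ)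
    _ = ENNReal.ofReal (∫ θ in Ioo (-π) π, (k (circleMap 0 r θ)).re / κ) :=
        (ofReal_integral_eq_lintegral_ofReal
          ((hc.integrableOn_Icc (a := -π) (b := π)).mono_set Ioo_subset_Icc_self)
          (.of_forall fun θ => le_trans (Real.rpow_nonneg (norm_nonneg _) a) (hpt θ))).symm
    _ ≤ _ := by
        refine ENNReal.ofReal_le_ofReal ?_
        rw [← integral_Ioc_eq_integral_Ioo,
          ← intervalIntegral.integral_of_le (by linarith [Real.pi_pos]),
          intervalIntegral.integral_div, hint]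
        gcongr
        exact (re_le_norm _).trans (le_of_eq (norm_cpow_real _ _))

/-- Functions of nonnegative real part lie in the Bergman class of every exponent below two. -/
theorem herglotz_area {p : ℝ} (hp : p ∈ Ioo (0 : ℝ) 2) (hq : DifferentiableOn ℂ q (ball 0 1))
    (hre : ∀ z ∈ ball (0 : ℂ) 1, 0 ≤ (q z).re) (hne : ∀ z ∈ ball (0 : ℂ) 1, q z ≠ 0)
    (h0 : 0 < (q 0).re) :
    ∫⁻ z in ball (0 : ℂ) 1, ENNReal.ofReal (‖q z‖ ^ p) < ⊤ := by
  set a := p / 2 with ha
  have haI : a ∈ Ioo (0 : ℝ) 1 := ⟨by linarith [hp.1], by linarith [hp.2]⟩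
  set M := 2 * π * ‖q 0‖ ^ a / Real.cos (a * (π / 2)) with hM
  set N := (2 * ‖q 0‖) ^ a with hN
  set G := fun z => (ball (0 : ℂ) 1).indicator (fun z => ENNReal.ofReal (‖q z‖ ^ p)) z with hG
  rw [← lintegral_indicator measurableSet_ball,
    ← Complex.lintegral_comp_polarCoord_symm, polarCoord_target]
  have hbound : ∀ x ∈ Ioi (0 : ℝ) ×ˢ Ioo (-π) π, ENNReal.ofReal x.1 • G (Complex.polarCoord.symm x)
      ≤ (Ioo (0 : ℝ) 1 ×ˢ Ioo (-π) π).indicator (fun x : ℝ × ℝ =>
          ENNReal.ofReal (N * (1 - x.1) ^ (-a))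
            * ENNReal.ofReal (‖q (circleMap 0 x.1 x.2)‖ ^ a)) x := by
    rintro ⟨r, θ⟩ ⟨hr, hθ⟩
    have hr' : (0 : ℝ) < r := hr
    have e : Complex.polarCoord.symm (r, θ) = circleMap 0 r θ := by
      simp [Complex.polarCoord_symm_apply, circleMap, exp_mul_I, ← ofReal_cos, ← ofReal_sin]
    rw [e, hG]
    simp only
    by_cases h1 : r < 1
    · have hm : circleMap 0 r θ ∈ ball (0 : ℂ) 1 := by simp [abs_of_pos hr', h1]
      rw [indicator_of_mem hm, indicator_of_mem (show (r, θ) ∈ Ioo (0 : ℝ) 1 ×ˢ Ioo (-π) π from ⟨⟨hr', h1⟩, hθ⟩), smul_eq_mul,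
        ← ENNReal.ofReal_mul hr'.le, ← ENNReal.ofReal_mul (by positivity)]
      refine ENNReal.ofReal_le_ofReal ?_
      have hn : ‖circleMap 0 r θ‖ = r := by simp [abs_of_pos hr']
      have hg := growth hq hre h0 (mem_ball_zero_iff.1 hm)
      rw [hn] at hg
      have hg' : ‖q (circleMap 0 r θ)‖ ^ a ≤ N * (1 - r) ^ (-a) := by
        refine (Real.rpow_le_rpow (norm_nonneg _) hg haI.1.le).trans_eq ?_
        rw [Real.div_rpow (by positivity) (by linarith), Real.rpow_neg (by linarith),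
          div_eq_mul_inv]
      have hsplit : ‖q (circleMap 0 r θ)‖ ^ p
          = ‖q (circleMap 0 r θ)‖ ^ a * ‖q (circleMap 0 r θ)‖ ^ a := by
        rw [← Real.rpow_add (norm_pos_iff.2 (hne _ hm))]
        congr 1
        ring
      rw [hsplit]
      calc r * (‖q (circleMap 0 r θ)‖ ^ a * ‖q (circleMap 0 r θ)‖ ^ a)
          ≤ 1 * (‖q (circleMap 0 r θ)‖ ^ a * ‖q (circleMap 0 r θ)‖ ^ a) := by gcongr
        _ ≤ _ := by rw [one_mul]; gcongr
    · rw [indicator_of_notMem (by simp [abs_of_pos hr']; linarith [not_lt.1 h1])]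
      simp
  refine lt_of_le_of_lt (setLIntegral_mono' (measurableSet_Ioi.prod measurableSet_Ioo) hbound) ?_
  refine lt_of_le_of_lt (setLIntegral_le_lintegral _ _) ?_
  rw [lintegral_indicator (measurableSet_Ioo.prod measurableSet_Ioo), Measure.volume_eq_prod,
    ← Measure.prod_restrict]
  refine lt_of_le_of_lt (lintegral_prod_le _) ?_
  calc ∫⁻ r in Ioo (0 : ℝ) 1, ∫⁻ θ in Ioo (-π) π, ENNReal.ofReal (N * (1 - r) ^ (-a))
            * ENNReal.ofReal (‖q (circleMap 0 r θ)‖ ^ a)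
      ≤ ∫⁻ r in Ioo (0 : ℝ) 1, ENNReal.ofReal (N * (1 - r) ^ (-a)) * ENNReal.ofReal M := by
        refine setLIntegral_mono' measurableSet_Ioo fun r hr => ?_
        rw [lintegral_const_mul' _ _ ENNReal.ofReal_ne_top]
        gcongr
        exact mean_rpow haI hq hre hne ⟨hr.1.le, hr.2⟩
    _ = (∫⁻ r in Ioo (0 : ℝ) 1, ENNReal.ofReal (N * (1 - r) ^ (-a))) * ENNReal.ofReal M :=
        lintegral_mul_const' _ _ ENNReal.ofReal_ne_top
    _ < ⊤ := by
        refine ENNReal.mul_lt_top ?_ ENNReal.ofReal_lt_top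
        have h := (((intervalIntegral.intervalIntegrable_rpow'
          (a := 0) (b := 1) (r := -a) (by linarith [haI.2])).comp_sub_left 1).const_mul N).symm
        rw [sub_self, sub_zero, intervalIntegrable_iff_integrableOn_Ioo_of_le zero_le_one] at h
        exact (lintegral_ofReal_le_lintegral_enorm _).trans_lt h.2

end Vale.Agent.P142.Graph
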