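import Vale.Agent.P142.Graph.Sep

/-!
Brennan graph domains: comparison of a map of the domain onto the disc with the map of a box.
-/

open Complex Metric Filter Set Topology
open scoped Real ComplexConjugate

namespace Vale.Agent.P142.Graph

variable {A c : ℝ} {g : ℝ → ℝ}

/-- A map bounded by one that tends to the circle along an arc has a bounded derivative there. -/
theorem lens {ζ₁ : ℂ} (h₁ : ‖ζ₁‖ = 1) {δ τ : ℝ} (hδ : 0 < δ) (hτ : 0 < τ) {k : ℂ → ℂ}
    (hd : DifferentiableOn ℂ k (ball ζ₁ δ ∩ ball 0 1))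
    (hle : ∀ z ∈ ball ζ₁ δ ∩ ball 0 1, ‖k z‖ < 1) (hge : ∀ z ∈ ball ζ₁ δ ∩ ball 0 1, τ ≤ ‖k z‖)
    (hedge : ∀ η > 0, ∃ r < 1, ∀ z ∈ ball ζ₁ δ ∩ ball 0 1, r ≤ ‖z‖ → 1 - η ≤ ‖k z‖)
    {s : ℝ} (hs : 1 - δ / 2 < s) (hs0 : 0 < s) (hs1 : s < 1) :
    ‖deriv k ((s : ℂ) * ζ₁)‖ ≤ 8 * |Real.log τ| / δ := by
  set d := δ / 2 with hdd
  set M := |Real.log τ| with hM
  set B₀ := M / d ^ 2 with hB₀
  set A₀ := 2 * B₀ * d with hA₀
  have hB : 0 ≤ B₀ := div_nonneg (abs_nonneg _) (sq_nonneg _)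
  set E : ℂ → ℂ := fun z => (A₀ : ℂ) * (1 - z * conj ζ₁) - (B₀ : ℂ) * (1 - z * conj ζ₁) ^ 2 with hE
  have hsub : closedBall ζ₁ d ⊆ ball ζ₁ δ := closedBall_subset_ball (by linarith)
  have h11 : ζ₁ * conj ζ₁ = 1 := by rw [mul_conj, normSq_eq_norm_sq, h₁]; simp
  have hdist : ∀ z, ‖1 - z * conj ζ₁‖ = dist z ζ₁ := fun z => by
    rw [dist_comm, dist_eq, ← mul_one ‖ζ₁ - z‖, ← show ‖conj ζ₁‖ = 1 by rw [norm_conj, h₁],
      ← norm_mul, sub_mul, h11]
  have hEre : ∀ z, ‖z‖ ≤ 1 → dist z ζ₁ ≤ d → B₀ * dist z ζ₁ ^ 2 ≤ (E z).re := by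
    intro z hz hzd
    set t := 1 - z * conj ζ₁ with ht
    have hy : 0 ≤ t.re := by
      have : (z * conj ζ₁).re ≤ 1 :=
        (re_le_norm _).trans (by rw [norm_mul, norm_conj, h₁, mul_one]; exact hz)
      simp [ht] at this ⊢
      linarith
    have hyd : t.re ≤ d := (re_le_norm _).trans ((hdist z).le.trans hzd)
    have e : (E z).re = A₀ * t.re - B₀ * (t.re ^ 2 - t.im ^ 2) := by
      simp [hE, sq, ← ht]
    rw [e, ← hdist z, ← normSq_eq_norm_sq, normSq_apply, hA₀]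
    nlinarith [mul_nonneg (mul_nonneg hB hy) (sub_nonneg.2 hyd)]
  set ζ := (s : ℂ) * ζ₁ with hζ
  have hζn : ‖ζ‖ = s := by rw [hζ, norm_mul, h₁, mul_one, norm_real, Real.norm_of_nonneg hs0.le]
  have hζd : dist ζ ζ₁ = 1 - s := by
    rw [hζ, dist_eq, show (s : ℂ) * ζ₁ - ζ₁ = ((s - 1 : ℝ) : ℂ) * ζ₁ by push_cast; ring,
      norm_mul, h₁, mul_one, norm_real, Real.norm_of_nonpos (by linarith)]
    ring
  have hζm : ζ ∈ ball ζ₁ δ ∩ ball 0 1 :=
    ⟨by rw [mem_ball, hζd]; linarith, mem_ball_zero_iff.2 (by rwa [hζn])⟩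
  have hEζ : (E ζ).re ≤ A₀ * (1 - s) := by
    have e : 1 - ζ * conj ζ₁ = ((1 - s : ℝ) : ℂ) := by
      rw [hζ, mul_assoc, h11]
      push_cast
      ring
    simp only [hE, e]
    rw [← ofReal_pow, ← ofReal_mul, ← ofReal_mul, ← ofReal_sub, ofReal_re]
    nlinarith [mul_nonneg hB (sq_nonneg (1 - s))]
  -- the maximum principle on a slightly smaller lens
  have key : Real.exp (-(A₀ * (1 - s))) ≤ ‖k ζ‖ := by
    suffices ∀ η : ℝ, 0 < η → η < 1 → (1 - η) * Real.exp (-(A₀ * (1 - s))) ≤ ‖k ζ‖ by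
      refine le_of_tendsto (f := fun η : ℝ => (1 - η) * Real.exp (-(A₀ * (1 - s))))
        (x := 𝓝[>] 0) ?_ (eventually_of_mem (Ioo_mem_nhdsGT zero_lt_one) fun η hη => this η hη.1 hη.2)
      have : Continuous fun η : ℝ => (1 - η) * Real.exp (-(A₀ * (1 - s))) := by fun_prop
      simpa using (this.tendsto 0).mono_left (nhdsWithin_le_nhds (s := Ioi 0))
    intro η hη hη1
    obtain ⟨r₀, hr₀, hedge'⟩ := hedge η hη
    set r := max r₀ ((1 + s) / 2) with hr
    have hr1 : r < 1 := max_lt hr₀ (by linarith)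
    have hsr : s < r := lt_max_of_lt_right (by linarith)
    set V := ball ζ₁ d ∩ ball 0 r with hV
    set F : ℂ → ℂ := fun z => exp (-E z) / k z with hF
    have hclV : closure V ⊆ closedBall ζ₁ d ∩ closedBall 0 r :=
      closure_minimal (inter_subset_inter ball_subset_closedBall ball_subset_closedBall)
        (isClosed_closedBall.inter isClosed_closedBall)
    have hclm : closure V ⊆ ball ζ₁ δ ∩ ball 0 1 :=
      hclV.trans (inter_subset_inter hsub (closedBall_subset_ball hr1))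
    have hkne : ∀ z ∈ ball ζ₁ δ ∩ ball 0 1, k z ≠ 0 := fun z hz =>
      norm_pos_iff.1 (hτ.trans_le (hge z hz))
    have hFd : DiffContOnCl ℂ F V := by
      refine DifferentiableOn.diffContOnCl fun z hz => ?_
      refine DifferentiableAt.differentiableWithinAt ?_
      exact (show DifferentiableAt ℂ (fun z => exp (-E z)) z by simp only [hE]; fun_prop).div
        (hd.differentiableAt ((isOpen_ball.inter isOpen_ball).mem_nhds (hclm hz)))
        (hkne z (hclm hz))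
    have hFζ := norm_le_of_forall_mem_frontier_norm_le
      ((isBounded_ball).subset (inter_subset_left : V ⊆ ball ζ₁ d)) hFd (C := 1 / (1 - η))
      (fun z hz => by
        have hm := hclm hz.1
        obtain ⟨hzd, hzr⟩ := hclV hz.1
        rw [mem_closedBall] at hzd
        rw [mem_closedBall_zero_iff] at hzr
        have hk0 : 0 < ‖k z‖ := norm_pos_iff.2 (hkne z hm)
        have hlo := hEre z (hzr.trans hr1.le) hzd
        simp only [hF, norm_div, norm_exp, neg_re]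
        rw [div_le_div_iff₀ hk0 (by linarith), one_mul]
        rcases hzd.lt_or_eq with hlt | heq
        · have hzn : ‖z‖ = r := by
            refine le_antisymm hzr (not_lt.1 fun h => hz.2 ?_)
            rw [(isOpen_ball.inter isOpen_ball).interior_eq]
            exact ⟨hlt, mem_ball_zero_iff.2 h⟩
          calc Real.exp (-(E z).re) * (1 - η) ≤ 1 * (1 - η) := by
                refine mul_le_mul_of_nonneg_right (Real.exp_le_one_iff.2 ?_) (by linarith)
                nlinarith [mul_nonneg hB (sq_nonneg (dist z ζ₁))]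
            _ ≤ _ := by
                rw [one_mul]
                exact hedge' z hm (hzn ▸ le_max_left _ _)
        · rw [heq, hB₀, div_mul_cancel₀ _ (by positivity)] at hlo
          calc Real.exp (-(E z).re) * (1 - η) ≤ Real.exp (-M) * 1 := by
                gcongr
                linarith
            _ ≤ τ := by
                rw [mul_one, ← Real.exp_log hτ, Real.exp_le_exp, hM]
                linarith [neg_abs_le (Real.log τ)]
            _ ≤ _ := hge z hm)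
      (subset_closure (show ζ ∈ V from ⟨by rw [mem_ball, hζd]; linarith,
        mem_ball_zero_iff.2 (by rwa [hζn])⟩))
    simp only [hF, norm_div, norm_exp, neg_re] at hFζ
    rw [div_le_div_iff₀ (norm_pos_iff.2 (hkne ζ hζm)) (by linarith), one_mul] at hFζ
    refine le_trans ?_ hFζ
    rw [mul_comm]
    refine mul_le_mul_of_nonneg_right (Real.exp_le_exp.2 (by linarith)) (by linarith)
  have hk1 : 1 - ‖k ζ‖ ≤ A₀ * (1 - s) := by
    linarith [Real.add_one_le_exp (-(A₀ * (1 - s)))]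
  -- the Schwarz lemma
  set ρ := 1 - s with hρ
  have hball : ball ζ ρ ⊆ ball ζ₁ δ ∩ ball 0 1 := by
    intro z hz
    rw [mem_ball] at hz
    refine ⟨?_, ?_⟩
    · rw [mem_ball]
      linarith [dist_triangle z ζ ζ₁]
    · rw [mem_ball_zero_iff]
      have := norm_le_norm_add_norm_sub' z ζ
      rw [← dist_eq] at this
      linarith
  have hb := hle ζ hζm
  set T := fun z => P116.mob (k ζ) (k z) with hT
  have hTd : HasDerivAt T ((1 - conj (k ζ) * k ζ) / (1 - conj (k ζ) * k ζ) ^ 2 * deriv k ζ) ζ :=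
    (P116.hasDerivAt_mob hb hb.le).comp ζ
      (hd.differentiableAt ((isOpen_ball.inter isOpen_ball).mem_nhds hζm)).hasDerivAt
  have hsch := norm_deriv_le_div_of_mapsTo_ball (f := T) (c := ζ) (R₂ := 1) (R₁ := ρ)
    ((P116.mob_differentiableOn hb).comp (hd.mono hball)
      fun z hz => mem_ball_zero_iff.2 (hle z (hball hz)))
    (fun z hz => by
      simp only [hT]
      rw [show P116.mob (k ζ) (k ζ) = 0 by simp [P116.mob], mem_closedBall_zero_iff]
      exact (P116.norm_mob_lt hb (hle z (hball hz))).le) (by linarith)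
  rw [hTd.deriv, norm_mul, norm_div, norm_pow,
    show 1 - conj (k ζ) * k ζ = ((1 - ‖k ζ‖ ^ 2 : ℝ) : ℂ) by
      rw [conj_mul']; push_cast; ring,
    norm_real, Real.norm_of_nonneg (by nlinarith [norm_nonneg (k ζ)])] at hsch
  have hpos : 0 < 1 - ‖k ζ‖ ^ 2 := by nlinarith [norm_nonneg (k ζ)]
  rw [div_mul_eq_mul_div, div_le_div_iff₀ (by positivity) (by linarith)] at hsch
  have h2 : ‖deriv k ζ‖ * ρ ≤ 1 - ‖k ζ‖ ^ 2 := by nlinarith
  have h3 : ‖deriv k ζ‖ * ρ ≤ 2 * A₀ * ρ := by nlinarith [norm_nonneg (k ζ)]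
  refine (le_of_mul_le_mul_right h3 (by linarith)).trans (le_of_eq ?_)
  rw [hA₀, hB₀, hdd]
  field_simp
  ring

/-- A chart at a boundary point: the lower half of a box is the domain near the point. -/
structure Chart (W : Set ℂ) (A c : ℝ) (g : ℝ → ℝ) (e v : ℂ) : Prop where
  box : Box A c g
  hv : v ≠ 0
  inside : ∀ w ∈ Graph.box A g, w.im < 0 → e + v * w ∈ W
  back : ∀ w : ℂ, |w.re| < A → -(1 / 2) ≤ w.im → w.im < 0 → e + v * w ∈ W → w ∈ Graph.box A g

variable {W : Set ℂ} {e v : ℂ}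

/-- Comparison of derivatives near the middle of the graph. -/
theorem Chart.compare (K : Chart W A c g e v) (hW : IsOpen W) {Ψ : ℂ → ℂ}
    (hd : DifferentiableOn ℂ Ψ W) (hbij : BijOn Ψ W (ball 0 1)) {τ : ℝ} (hτ : 0 < τ)
    (hge : ∀ w : ℂ, |w.re| ≤ A / 2 → -(1 / 2) ≤ w.im → w.im ≤ 0 → e + v * w ∈ W →
      τ ≤ ‖Ψ (e + v * w)‖) :
    ∃ C, ∃ δ, 0 < δ ∧ δ < 1 ∧ ∀ w ∈ Graph.box A g, |w.re| ≤ A / 4 → w.im < 0 →
      1 - δ < ‖K.box.ψ w‖ → ‖deriv Ψ (e + v * w)‖ ≤ C * ‖deriv K.box.ψ w‖ := by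
  set H := K.box
  obtain ⟨δ, hδ, hδ2, hsep⟩ := H.sep
  refine ⟨8 * |Real.log τ| / δ / ‖v‖, δ / 2, by linarith, by linarith,
    fun w hw hwA hwi hwδ => ?_⟩
  set s := ‖H.ψ w‖ with hs
  have hs1 : s < 1 := mem_ball_zero_iff.1 (H.ψ_mem hw)
  have hs0 : 0 < s := by linarith
  set ζ₁ := H.ψ w / (s : ℂ) with hζ₁
  have h₁ : ‖ζ₁‖ = 1 := by
    rw [hζ₁, norm_div, norm_real, Real.norm_of_nonneg hs0.le, div_self hs0.ne']
  set U := ball ζ₁ δ ∩ ball (0 : ℂ) 1 with hU
  have hloc : ∀ z ∈ U, |(H.h z).re| < A / 2 ∧ (H.h z).im < 0 := fun z hz =>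
    hsep w hw hwA hwi (by linarith) z hz.2 hz.1
  have hW' : ∀ z ∈ U, e + v * H.h z ∈ W := fun z hz => K.inside _ (H.h_mem hz.2) (hloc z hz).2
  have hhalf : ∀ z ∈ U, -(1 / 2) ≤ (H.h z).im := fun z hz => by
    obtain ⟨h1, h2⟩ := H.h_mem hz.2
    linarith [H.high _ h1, neg_abs_le (H.h z).im]
  set k := fun z => Ψ (e + v * H.h z) with hk
  have hkd : DifferentiableOn ℂ k U := by
    intro z hz
    exact ((hd.differentiableAt (hW.mem_nhds (hW' z hz))).comp z
      (((H.h_diff.differentiableAt (isOpen_ball.mem_nhds hz.2)).const_mul v).const_add e))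
      |>.differentiableWithinAt
  have hedge : ∀ η > 0, ∃ r < 1, ∀ z ∈ U, r ≤ ‖z‖ → 1 - η ≤ ‖k z‖ := by
    intro η hη
    set G := Function.invFunOn Ψ W
    have hGc : ContinuousOn G (ball (0 : ℂ) 1) := by
      rw [← hbij.image_eq]
      exact (P116.inv_differentiableOn hW hd hbij.injOn
        fun x hx => hbij.injOn.leftInvOn_invFunOn hx).continuousOn
    set K₁ := G '' closedBall 0 (1 - η)
    have hsub : closedBall (0 : ℂ) (1 - η) ⊆ ball 0 1 := closedBall_subset_ball (by linarith)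
    have hK₁ : IsCompact K₁ := (isCompact_closedBall 0 _).image_of_continuousOn (hGc.mono hsub)
    have hK₁W : K₁ ⊆ W := by
      rintro _ ⟨x, hx, rfl⟩
      exact Function.invFunOn_mem (hbij.image_eq.symm ▸ hsub hx : x ∈ Ψ '' W)
    set K₂ := ((Icc (-(A / 2)) (A / 2)) ×ℂ Icc (-(1 / 2 : ℝ)) 0) ∩
      (fun w : ℂ => e + v * w) ⁻¹' K₁
    have hK₂ : IsCompact K₂ := (isCompact_Icc.reProdIm isCompact_Icc).inter_right
      (hK₁.isClosed.preimage (by fun_prop))
    have hK₂b : K₂ ⊆ Graph.box A g := by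
      rintro z ⟨⟨hz1, hz2⟩, hz3⟩
      have hzA : |z.re| < A := abs_lt.2 ⟨by linarith [hz1.1, H.hA], by linarith [hz1.2, H.hA]⟩
      rcases hz2.2.lt_or_eq with h | h
      · exact K.back z hzA hz2.1 h (hK₁W hz3)
      · refine ⟨hzA, ?_⟩
        rw [h, abs_zero]
        exact H.hc.trans_le (H.low _ hzA)
    have hψK := hK₂.image_of_continuousOn (H.ψ_diff.continuousOn.mono hK₂b)
    obtain ⟨r, hr, hr'⟩ : ∃ r < 1, ∀ x ∈ H.ψ '' K₂, ‖x‖ < r := by
      rcases (H.ψ '' K₂).eq_empty_or_nonempty with h | h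
      · exact ⟨0, one_pos, by simp [h]⟩
      · obtain ⟨x₀, hx₀, hmax⟩ := hψK.exists_isMaxOn h continuous_norm.continuousOn
        obtain ⟨z₀, hz₀, rfl⟩ := hx₀
        have hlt := mem_ball_zero_iff.1 (H.ψ_mem (hK₂b hz₀))
        exact ⟨(1 + ‖H.ψ z₀‖) / 2, by linarith, fun x hx =>
          lt_of_le_of_lt (show ‖x‖ ≤ ‖H.ψ z₀‖ from hmax hx) (by linarith)⟩
    refine ⟨r, hr, fun z hz hzr => not_lt.1 fun hlt => ?_⟩
    refine (hr' z ⟨H.h z, ⟨⟨?_, ?_⟩, ?_⟩, H.ψ_h hz.2⟩).not_ge hzr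
    · exact abs_le.1 (hloc z hz).1.le
    · exact ⟨hhalf z hz, (hloc z hz).2.le⟩
    · exact ⟨Ψ (e + v * H.h z), mem_closedBall_zero_iff.2 hlt.le,
        hbij.injOn.leftInvOn_invFunOn (hW' z hz)⟩
  have hb := lens h₁ hδ hτ hkd (fun z hz => mem_ball_zero_iff.1 (hbij.mapsTo (hW' z hz)))
    (fun z hz => hge _ (hloc z hz).1.le (hhalf z hz) (hloc z hz).2.le (hW' z hz))
    hedge (s := s) (by linarith) hs0 hs1
  have hsζ : (s : ℂ) * ζ₁ = H.ψ w := by
    rw [hζ₁, mul_div_cancel₀ _ (ofReal_ne_zero.2 hs0.ne')]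
  rw [hsζ] at hb
  have hζb := H.ψ_mem hw
  have hder : deriv k (H.ψ w) = deriv Ψ (e + v * w) * (v * deriv H.h (H.ψ w)) := by
    have h1 := (((H.h_diff.differentiableAt (isOpen_ball.mem_nhds hζb)).hasDerivAt.const_mul v).const_add e)
    have h2 := (hd.differentiableAt (hW.mem_nhds (K.inside w hw hwi))).hasDerivAt
    refine (HasDerivAt.comp (h₂ := Ψ) (H.ψ w) ?_ h1).deriv
    rw [H.h_ψ hw]
    exact h2
  have hmul : deriv H.ψ w * deriv H.h (H.ψ w) = 1 := by
    have := H.deriv_mul hζb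
    rwa [H.h_ψ hw] at this
  have hid : deriv Ψ (e + v * w) = deriv k (H.ψ w) * deriv H.ψ w / v := by
    rw [hder, eq_div_iff K.hv]
    linear_combination (-(deriv Ψ (e + v * w) * v)) * hmul
  rw [hid, norm_div, norm_mul, div_mul_eq_mul_div]
  gcongr

end Vale.Agent.P142.Graph
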