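import Vale.Agent.P142.Graph.Lens

/-!
Brennan graph domains: local integrability at a chart, construction of charts, and assembly.
-/

open Complex Metric Filter Set Topology MeasureTheory
open scoped Real ENNReal ComplexConjugate

namespace Vale.Agent.P142.Graph

variable {W : Set ℂ} {e v : ℂ} {A c : ℝ} {g : ℝ → ℝ}

/-- The middle of the lower half of the box. -/
def mid (A : ℝ) : Set ℂ := {w | |w.re| < A / 4 ∧ |w.im + 1 / 4| < 1 / 8}

lemma isOpen_mid (A : ℝ) : IsOpen (mid A) :=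
  (isOpen_lt (continuous_abs.comp continuous_re) continuous_const).inter
    (isOpen_lt (continuous_abs.comp (continuous_im.add continuous_const)) continuous_const)

lemma mob_deriv_lower {b x : ℂ} (hb : ‖b‖ < 1) (hx : ‖x‖ ≤ 1) :
    (1 - ‖b‖ ^ 2) / 4 ≤ ‖deriv (P116.mob b) x‖ := by
  rw [(P116.hasDerivAt_mob hb hx).deriv, norm_div, norm_pow,
    show 1 - conj b * b = ((1 - ‖b‖ ^ 2 : ℝ) : ℂ) by rw [conj_mul']; push_cast; ring, norm_real,
    Real.norm_of_nonneg (by nlinarith [norm_nonneg b])]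
  refine div_le_div_of_nonneg_left (by nlinarith [norm_nonneg b])
    (pow_pos (norm_pos_iff.2 (P116.mob_den hb hx)) 2) ?_
  have : ‖1 - conj b * x‖ ≤ 2 := by
    refine (norm_sub_le _ _).trans ?_
    rw [norm_one, norm_mul, norm_conj]
    nlinarith [norm_nonneg b, norm_nonneg x]
  nlinarith [norm_nonneg (1 - conj b * x)]

/-- Pointwise bound near the middle of the graph. -/
theorem Chart.bound (K : Chart W A c g e v) (hW : IsOpen W) {φ : ℂ → ℂ}
    (hd : DifferentiableOn ℂ φ W) (hbij : BijOn φ W (ball 0 1)) :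
    ∃ C, 0 ≤ C ∧ ∀ w ∈ mid A ∩ Graph.box A g,
      ‖deriv φ (e + v * w)‖ ≤ C * (1 + ‖deriv K.box.ψ w‖) := by
  set H := K.box
  set w₁ : ℂ := ⟨3 * A / 4, -(c / 2)⟩ with hw₁
  have h34 : |(3 * A / 4 : ℝ)| < A := by
    rw [abs_of_pos (by linarith [H.hA])]
    linarith [H.hA]
  have hw₁b : w₁ ∈ Graph.box A g := ⟨h34, by
    show |(-(c / 2) : ℝ)| < g (3 * A / 4)
    rw [abs_neg, abs_of_pos (by linarith [H.hc])]
    linarith [H.low _ h34, H.hc]⟩
  have hz₁ : e + v * w₁ ∈ W := K.inside _ hw₁b (show -(c / 2) < 0 by linarith [H.hc])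
  set b := φ (e + v * w₁)
  have hb : ‖b‖ < 1 := mem_ball_zero_iff.1 (hbij.mapsTo hz₁)
  set Ψ := fun z => P116.mob b (φ z) with hΨ
  have hΨd : DifferentiableOn ℂ Ψ W := (P116.mob_differentiableOn hb).comp hd hbij.mapsTo
  have hΨb : BijOn Ψ W (ball 0 1) := by
    refine ⟨(P116.mob_mapsTo hb).comp hbij.mapsTo, fun x hx y hy h => hbij.injOn hx hy
      (P116.mob_injOn hb (ball_subset_closedBall (hbij.mapsTo hx))
        (ball_subset_closedBall (hbij.mapsTo hy)) h), fun y hy => ?_⟩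
    have hnb : ‖-b‖ < 1 := by rwa [norm_neg]
    obtain ⟨x, hx, hxe⟩ := hbij.surjOn (P116.mob_mapsTo hnb hy)
    refine ⟨x, hx, ?_⟩
    simp only [hΨ, hxe]
    have h1 := P116.mob_den hnb (mem_ball_zero_iff.1 hy).le
    have h2 : 1 - conj b * P116.mob (-b) y ≠ 0 :=
      P116.mob_den hb (mem_ball_zero_iff.1 (P116.mob_mapsTo hnb hy)).le
    rw [show P116.mob b (P116.mob (-b) y)
        = (P116.mob (-b) y - b) / (1 - conj b * P116.mob (-b) y) from rfl, div_eq_iff h2]
    simp only [P116.mob, map_neg] at h1 ⊢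
    have hm := div_mul_cancel₀ (y - -b) h1
    linear_combination hm
  have hΨ1 : Ψ (e + v * w₁) = 0 := by simp [hΨ, b, P116.mob]
  obtain ⟨τ, hτ, hge⟩ : ∃ τ > 0, ∀ w : ℂ, |w.re| ≤ A / 2 → -(1 / 2) ≤ w.im → w.im ≤ 0 →
      e + v * w ∈ W → τ ≤ ‖Ψ (e + v * w)‖ := by
    set G := Function.invFunOn Ψ W
    have h0 : (0 : ℂ) ∈ ball (0 : ℂ) 1 := mem_ball_self one_pos
    have hGc : ContinuousAt G 0 := by
      have := (P116.inv_differentiableOn hW hΨd hΨb.injOn
        fun x hx => hΨb.injOn.leftInvOn_invFunOn hx).continuousOn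
      rw [hΨb.image_eq] at this
      exact this.continuousAt (isOpen_ball.mem_nhds h0)
    have hG0 : G 0 = e + v * w₁ := by
      rw [← hΨ1]
      exact hΨb.injOn.leftInvOn_invFunOn hz₁
    set B := (fun w : ℂ => e + v * w) '' ((Icc (-(A / 2)) (A / 2)) ×ℂ Icc (-(1 / 2 : ℝ)) 0) with hB
    have hBc : IsClosed B := ((isCompact_Icc.reProdIm isCompact_Icc).image (by fun_prop)).isClosed
    have hnot : G 0 ∉ B := by
      rw [hG0]
      rintro ⟨u, hu, he⟩
      have : u = w₁ := mul_left_cancel₀ K.hv (add_left_cancel he)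
      rw [this] at hu
      have : (3 * A / 4 : ℝ) ≤ A / 2 := hu.1.2
      linarith [H.hA]
    obtain ⟨τ, hτ, hsub⟩ := Metric.mem_nhds_iff.1 (hGc (hBc.isOpen_compl.mem_nhds hnot))
    refine ⟨τ, hτ, fun w h1 h2 h3 hwW => not_lt.1 fun hlt => hsub (mem_ball_zero_iff.2 hlt) ?_⟩
    exact ⟨w, ⟨abs_le.1 h1, h2, h3⟩, (hΨb.injOn.leftInvOn_invFunOn hwW).symm⟩
  obtain ⟨C, δ, hδ, hδ1, hcmp⟩ := K.compare hW hΨd hΨb hτ hge
  set S := H.h '' closedBall 0 (1 - δ) ∩
    ((Icc (-(A / 4)) (A / 4)) ×ℂ Icc (-(3 / 8 : ℝ)) (-(1 / 8))) with hS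
  have hsub1 : closedBall (0 : ℂ) (1 - δ) ⊆ ball 0 1 := closedBall_subset_ball (by linarith)
  have hSc : IsCompact S := ((isCompact_closedBall 0 _).image_of_continuousOn
    (H.h_diff.continuousOn.mono hsub1)).inter_right
      (isCompact_Icc.reProdIm isCompact_Icc).isClosed
  have hSW : ∀ w ∈ S, e + v * w ∈ W := by
    rintro w ⟨⟨x, hx, rfl⟩, -, h2⟩
    exact K.inside _ (H.h_mem (hsub1 hx)) (lt_of_le_of_lt h2.2 (by norm_num))
  obtain ⟨Mb, hMb⟩ := hSc.exists_bound_of_continuousOn (f := fun w => deriv φ (e + v * w))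
    ((hd.deriv hW).continuousOn.comp (by fun_prop) hSW)
  set m := (1 - ‖b‖ ^ 2) / 4 with hm
  have hm0 : 0 < m := by
    have : ‖b‖ ^ 2 < 1 := by nlinarith [norm_nonneg b]
    linarith
  refine ⟨max (max Mb 0) (C / m), le_max_of_le_left (le_max_right _ _), ?_⟩
  rintro w ⟨⟨h1, h2⟩, hwb⟩
  have him : w.im < 0 := by
    rw [abs_lt] at h2
    linarith
  have hn : 0 ≤ ‖deriv H.ψ w‖ := norm_nonneg _
  have hn' : 0 ≤ max (max Mb 0) (C / m) := le_max_of_le_left (le_max_right _ _)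
  by_cases hw : 1 - δ < ‖H.ψ w‖
  · have h := hcmp w hwb h1.le him hw
    have hzW := K.inside w hwb him
    have hdd : deriv Ψ (e + v * w) = deriv (P116.mob b) (φ (e + v * w)) * deriv φ (e + v * w) :=
      ((P116.hasDerivAt_mob hb (mem_ball_zero_iff.1 (hbij.mapsTo hzW)).le).differentiableAt.hasDerivAt.comp
        _ (hd.differentiableAt (hW.mem_nhds hzW)).hasDerivAt).deriv
    rw [hdd, norm_mul] at h
    have hlow := mob_deriv_lower hb (mem_ball_zero_iff.1 (hbij.mapsTo hzW)).le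
    have h' : m * ‖deriv φ (e + v * w)‖ ≤ C * ‖deriv H.ψ w‖ :=
      le_trans (mul_le_mul_of_nonneg_right hlow (norm_nonneg _)) h
    calc ‖deriv φ (e + v * w)‖ ≤ C / m * ‖deriv H.ψ w‖ := by
          rw [div_mul_eq_mul_div, le_div_iff₀ hm0]
          linarith
      _ ≤ max (max Mb 0) (C / m) * ‖deriv H.ψ w‖ :=
          mul_le_mul_of_nonneg_right (le_max_right _ _) hn
      _ ≤ _ := by nlinarith
  · have hmem : w ∈ S := by
      rw [abs_lt] at h1 h2
      exact ⟨⟨H.ψ w, mem_closedBall_zero_iff.2 (not_lt.1 hw), H.h_ψ hwb⟩,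
        ⟨by linarith, by linarith⟩, ⟨by linarith, by linarith⟩⟩
    calc ‖deriv φ (e + v * w)‖ ≤ Mb := hMb w hmem
      _ ≤ max (max Mb 0) (C / m) := le_max_of_le_left (le_max_left _ _)
      _ ≤ _ := le_mul_of_one_le_right hn' (by linarith)

/-- Local integrability. -/
theorem Chart.integrable (K : Chart W A c g e v) (hW : IsOpen W) {φ : ℂ → ℂ}
    (hd : DifferentiableOn ℂ φ W) (hbij : BijOn φ W (ball 0 1)) {s : ℝ}
    (hs : s ∈ Ioo (4 / 3 : ℝ) 4) :
    IntegrableOn (fun z => ‖deriv φ z‖ ^ s) ((fun w => e + v * w) '' mid A ∩ W) := by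
  obtain ⟨C, hC, hb⟩ := K.bound hW hd hbij
  set σ := max s 3 with hσ
  have hσI : σ ∈ Ioo (2 : ℝ) 4 :=
    ⟨lt_max_of_lt_right (by norm_num), max_lt hs.2 (by norm_num)⟩
  have hs0 : 0 < s := by linarith [hs.1]
  set T := mid A ∩ Graph.box A g with hT
  have hTo : IsOpen T := (isOpen_mid A).inter K.box.isOpen
  have hsub : (fun w => e + v * w) '' mid A ∩ W ⊆ (fun w => e + v * w) '' T := by
    rintro _ ⟨⟨w, hw, rfl⟩, hwW⟩
    obtain ⟨h1, h2⟩ := hw
    rw [abs_lt] at h2
    exact ⟨w, ⟨⟨h1, abs_lt.2 h2⟩, K.back w (by linarith [K.box.hA]) (by linarith) (by linarith) hwW⟩, rfl⟩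
  refine IntegrableOn.mono_set (t := (fun w => e + v * w) '' T) ⟨?_, ?_⟩ hsub
  · exact (((measurable_deriv φ).norm).pow_const s).aestronglyMeasurable
  have hder : ∀ w ∈ T, HasFDerivWithinAt (fun w => e + v * w)
      ((ContinuousLinearMap.toSpanSingleton ℂ v).restrictScalars ℝ) T w :=
    fun w _ => ((by simpa using ((hasDerivAt_id w).const_mul v).const_add e :
      HasDerivAt (fun w => e + v * w) v w).hasFDerivAt.restrictScalars ℝ).hasFDerivWithinAt
  unfold HasFiniteIntegral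
  rw [lintegral_image_eq_lintegral_abs_det_fderiv_mul volume hTo.measurableSet hder
    fun x _ y _ h => mul_left_cancel₀ K.hv (add_left_cancel h)]
  simp only [P116.det_mul_left, abs_of_nonneg (normSq_nonneg _)]
  rw [lintegral_const_mul' _ _ ENNReal.ofReal_ne_top]
  refine ENNReal.mul_lt_top ENNReal.ofReal_lt_top ?_
  set D := (2 * (C + 1)) ^ s with hD
  have hpt : ∀ w ∈ T, ‖‖deriv φ (e + v * w)‖ ^ s‖ₑ
      ≤ ENNReal.ofReal D * (1 + ENNReal.ofReal (‖deriv K.box.ψ w‖ ^ σ)) := by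
    intro w hw
    rw [Real.enorm_eq_ofReal (Real.rpow_nonneg (norm_nonneg _) s), ← ENNReal.ofReal_one,
      ← ENNReal.ofReal_add zero_le_one (Real.rpow_nonneg (norm_nonneg _) σ),
      ← ENNReal.ofReal_mul (by positivity)]
    refine ENNReal.ofReal_le_ofReal ?_
    set x := ‖deriv K.box.ψ w‖
    have hx : 0 ≤ x := norm_nonneg _
    have h1 : ‖deriv φ (e + v * w)‖ ≤ 2 * (C + 1) * max 1 x := by
      refine (hb w hw).trans ?_
      nlinarith [le_max_left 1 x, le_max_right 1 x, mul_nonneg hC hx]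
    calc ‖deriv φ (e + v * w)‖ ^ s ≤ (2 * (C + 1) * max 1 x) ^ s :=
          Real.rpow_le_rpow (norm_nonneg _) h1 hs0.le
      _ = D * max 1 x ^ s := Real.mul_rpow (by positivity) (by positivity)
      _ ≤ D * (1 + x ^ σ) := by
          gcongr
          rcases le_total x 1 with h | h
          · rw [max_eq_left h, Real.one_rpow]
            linarith [Real.rpow_nonneg hx σ]
          · rw [max_eq_right h]
            linarith [Real.rpow_le_rpow_of_exponent_le h (le_max_left s 3)]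
  refine lt_of_le_of_lt (setLIntegral_mono' hTo.measurableSet hpt) ?_
  rw [lintegral_const_mul' _ _ ENNReal.ofReal_ne_top, lintegral_add_left' aemeasurable_const,
    setLIntegral_one]
  refine ENNReal.mul_lt_top ENNReal.ofReal_lt_top (ENNReal.add_lt_top.2 ⟨?_, ?_⟩)
  · exact (isBounded_ball.subset (inter_subset_right.trans K.box.subset_ball)).measure_lt_top
  · exact lt_of_le_of_lt (lintegral_mono_set inter_subset_right) (K.box.area hσI)

/-- A graph chart at a boundary point gives a box chart. -/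
theorem exists_chart (hW : IsOpen W) {p u : ℂ} (hu : u ≠ 0) {a : ℝ} (ha : 0 < a) {γ : ℝ → ℝ}
    (hγ : ∀ x y : ℝ, |x| < a → |y| < 1 → |γ x| < 1 ∧ (p + u * (x + y * I) ∈ W ↔ γ x < y)) :
    ∃ A c g e v, Chart W A c g e v ∧ p ∈ (fun w => e + v * w) '' mid A := by
  set A := min (a / 8) (1 / 4) with hA
  have hA0 : 0 < A := lt_min (by linarith) (by norm_num)
  have hAa : A ≤ a / 8 := min_le_left _ _
  have hγ1 : ∀ x, |x| < a → |γ x| < 1 := fun x hx => (hγ x 0 hx (by simp)).1
  have hiff : ∀ x y : ℝ, |x| < a → |y| < 1 → (p + u * (x + y * I) ∈ W ↔ γ x < y) :=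
    fun x y hx hy => (hγ x y hx hy).2
  obtain ⟨m, hm1, hm⟩ : ∃ m < 1, ∀ x ∈ Icc (-(a / 2)) (a / 2), γ x ≤ m := by
    refine (isCompact_Icc (a := -(a / 2)) (b := a / 2)).induction_on
      (p := fun S => ∃ m < 1, ∀ x ∈ S, γ x ≤ m) ⟨0, one_pos, by simp⟩
      (fun S S' hSS' ⟨m, h1, h2⟩ => ⟨m, h1, fun x hx => h2 x (hSS' hx)⟩)
      (fun S S' ⟨m, h1, h2⟩ ⟨m', h1', h2'⟩ => ⟨max m m', max_lt h1 h1', fun x hx =>
        hx.elim (fun h => (h2 x h).trans (le_max_left _ _))
          fun h => (h2' x h).trans (le_max_right _ _)⟩) fun x hx => ?_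
    have hxa : |x| < a := by
      rw [abs_lt]
      constructor <;> linarith [hx.1, hx.2]
    have hgx := abs_lt.1 (hγ1 x hxa)
    set y := (1 + γ x) / 2 with hy
    have hy1 : |y| < 1 := abs_lt.2 ⟨by linarith, by linarith⟩
    have hmem : p + u * (x + y * I) ∈ W := (hiff x y hxa hy1).2 (by linarith)
    have hnhds : ∀ᶠ x' : ℝ in 𝓝 x, p + u * ((x' : ℂ) + y * I) ∈ W ∧ |x'| < a := by
      refine Filter.Eventually.and ?_
        (eventually_of_mem ((isOpen_lt continuous_abs continuous_const).mem_nhds hxa) fun _ h => h)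
      exact (Continuous.continuousAt (by fun_prop)).preimage_mem_nhds (hW.mem_nhds hmem)
    exact ⟨_, mem_nhdsWithin_of_mem_nhds hnhds, y, by linarith, fun x' hx' =>
      ((hiff x' y hx'.2 hy1).1 hx'.1).le⟩
  set c := (1 - m) / 4 with hc
  set g : ℝ → ℝ := fun t => (1 - γ (4 * t)) / 4 with hg
  set e := p + u * I with he
  set v := 4 * u with hv
  have h4 : ∀ t, |t| < A → |4 * t| < a := fun t ht => by
    rw [abs_mul, abs_of_pos (by norm_num : (0 : ℝ) < 4)]
    linarith
  have hlow : ∀ t, |t| < A → c ≤ g t := fun t ht => by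
    have h := hm (4 * t) ⟨by linarith [(abs_lt.1 ht).1], by linarith [(abs_lt.1 ht).2]⟩
    simp only [hg, hc]
    linarith
  have hL : ∀ w : ℂ, e + v * w = p + u * (((4 * w.re : ℝ) : ℂ) + ((4 * w.im + 1 : ℝ) : ℂ) * I) := by
    intro w
    conv_lhs => rw [← re_add_im w]
    simp only [he, hv]
    push_cast
    ring
  have key : ∀ w : ℂ, |w.re| < A → -(1 / 2) < w.im → w.im < 0 →
      (e + v * w ∈ W ↔ -w.im < g w.re) := by
    intro w h1 h2 h3
    rw [hL, hiff _ _ (h4 _ h1) (abs_lt.2 ⟨by linarith, by linarith⟩)]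
    simp only [hg]
    constructor <;> intro h <;> linarith
  have hopen : IsOpen (box A g) := by
    have e1 : box A g = {w : ℂ | |w.re| < A} ∩ ({w | |w.im| < c} ∪
        ({w | |w.im| < 1 / 2} ∩ {w | w.im ≠ 0} ∩
          (fun w : ℂ => e + v * ((w.re : ℂ) + ((-|w.im| : ℝ) : ℂ) * I)) ⁻¹' W)) := by
      ext w
      simp only [box, mem_inter_iff, mem_union, mem_ofPred_eq, mem_preimage]
      refine and_congr_right fun h1 => ?_
      have hre : ((w.re : ℂ) + ((-|w.im| : ℝ) : ℂ) * I).re = w.re := by simp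
      have him : ((w.re : ℂ) + ((-|w.im| : ℝ) : ℂ) * I).im = -|w.im| := by simp
      constructor
      · intro h2
        by_cases h0 : w.im = 0
        · left
          rw [h0, abs_zero]
          linarith
        · have hhalf : |w.im| < 1 / 2 := by
            have := abs_lt.1 (hγ1 _ (h4 _ h1))
            simp only [hg] at h2
            linarith
          refine Or.inr ⟨⟨hhalf, h0⟩, ?_⟩
          have hpos := abs_pos.2 h0
          have := key ((w.re : ℂ) + ((-|w.im| : ℝ) : ℂ) * I) (by rwa [hre])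
            (by rw [him]; linarith) (by rw [him]; linarith)
          rw [hre, him, neg_neg] at this
          exact this.2 h2
      · rintro (h2 | ⟨⟨hhalf, h0⟩, h2⟩)
        · exact h2.trans_le (hlow _ h1)
        · have hpos := abs_pos.2 h0
          have := key ((w.re : ℂ) + ((-|w.im| : ℝ) : ℂ) * I) (by rwa [hre])
            (by rw [him]; linarith) (by rw [him]; linarith)
          rw [hre, him, neg_neg] at this
          exact this.1 h2
    rw [e1]
    exact (isOpen_lt (by fun_prop) continuous_const).inter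
      ((isOpen_lt (by fun_prop) continuous_const).union
        (((isOpen_lt (by fun_prop) continuous_const).inter
          (isOpen_ne_fun continuous_im continuous_const)).inter (hW.preimage (by fun_prop))))
  refine ⟨A, c, g, e, v, ⟨⟨hA0, min_le_right _ _, by rw [hc]; linarith, hlow, fun t ht => ?_, hopen⟩,
    mul_ne_zero (by norm_num) hu, ?_, ?_⟩, ?_⟩
  · have := abs_lt.1 (hγ1 _ (h4 _ ht))
    simp only [hg]
    linarith
  · rintro w ⟨h1, h2⟩ h3
    have hhalf : |w.im| < 1 / 2 := by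
      have := abs_lt.1 (hγ1 _ (h4 _ h1))
      simp only [hg] at h2
      linarith
    rw [abs_of_neg h3] at h2 hhalf
    exact (key w h1 (by linarith) h3).2 h2
  · intro w h1 h2 h3 h4W
    rcases h2.lt_or_eq with h | h
    · exact ⟨h1, by rw [abs_of_neg h3]; exact (key w h1 h h3).1 h4W⟩
    · exfalso
      rw [hL] at h4W
      have e2 : (4 * w.im + 1 : ℝ) = -1 := by linarith
      rw [e2] at h4W
      have hgx := abs_lt.1 (hγ1 _ (h4 _ h1))
      have hcont : Continuous fun y : ℝ => p + u * (((4 * w.re : ℝ) : ℂ) + (y : ℂ) * I) := by fun_prop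
      obtain ⟨y, hy, hyW⟩ := Filter.nonempty_of_mem (inter_mem
        (Ioo_mem_nhdsGT (show (-1 : ℝ) < γ (4 * w.re) by linarith))
        (mem_nhdsWithin_of_mem_nhds (t := Ioi (-1 : ℝ))
          (show (fun y : ℝ => p + u * (((4 * w.re : ℝ) : ℂ) + (y : ℂ) * I)) ⁻¹' W ∈ 𝓝 (-1) from
            hcont.continuousAt.preimage_mem_nhds (hW.mem_nhds h4W))))
      have := (hiff _ y (h4 _ h1) (abs_lt.2 ⟨hy.1, by linarith [hy.2]⟩)).1 hyW
      linarith [hy.2]
  · refine ⟨-(I / 4), ⟨by simpa using hA0, by norm_num⟩, ?_⟩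
    simp only [he, hv]
    ring

end Vale.Agent.P142.Graph
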