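import Vale.Agent.P142.Graph.Deriv

/-!
Brennan graph domains: the part of the disc near the image of a point over the middle of the
graph is mapped into the lower middle part of the box.
-/

open Complex Metric Filter Set Topology
open scoped Real ComplexConjugate

namespace Vale.Agent.P142.Graph

variable {A c : ℝ} {g : ℝ → ℝ}

namespace Box

/-- A point of an arc separates from the origin what the arc encloses. -/
lemma path_hit (H : Box A c g) {ζ₁ : ℂ} (h₁ : ‖ζ₁‖ = 1) {r : ℝ} (hr : r < 1) {x : ℂ}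
    (hx : x ∈ ball (0 : ℂ) 1) (hxr : dist x ζ₁ < r) :
    ∃ y ∈ ball (0 : ℂ) 1, dist y ζ₁ = r ∧ ∃ t ∈ Icc (0 : ℝ) 1,
      H.h y = ((t * (H.h x).re : ℝ) : ℂ) ∨ H.h y = ⟨(H.h x).re, t * (H.h x).im⟩ := by
  set w := H.h x with hw
  have hwb : w ∈ box A g := H.h_mem hx
  set C : Set ℂ := (fun t : ℝ => ((t * w.re : ℝ) : ℂ)) '' Icc 0 1 ∪
    (fun t : ℝ => (⟨w.re, t * w.im⟩ : ℂ)) '' Icc 0 1 with hC
  have hcv : Continuous fun t : ℝ => (⟨w.re, t * w.im⟩ : ℂ) := by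
    have e : (fun t : ℝ => (⟨w.re, t * w.im⟩ : ℂ)) = fun t : ℝ => (w.re : ℂ) + (t * w.im : ℝ) * I := by
      funext t
      apply Complex.ext <;> simp
    rw [e]
    fun_prop
  have hCp : IsPreconnected C :=
    IsPreconnected.union ((w.re : ℂ)) ⟨1, right_mem_Icc.2 zero_le_one, by simp⟩
      ⟨0, left_mem_Icc.2 zero_le_one, by apply Complex.ext <;> simp⟩
      (isPreconnected_Icc.image _ (by fun_prop : Continuous fun t : ℝ => ((t * w.re : ℝ) : ℂ)).continuousOn)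
      (isPreconnected_Icc.image _ hcv.continuousOn)
  have hCb : C ⊆ box A g := by
    rintro _ (⟨t, ht, rfl⟩ | ⟨t, ht, rfl⟩)
    · refine H.mem_real (lt_of_le_of_lt ?_ hwb.1)
      rw [abs_mul, abs_of_nonneg ht.1]
      exact mul_le_of_le_one_left (abs_nonneg _) ht.2
    · refine vert_mem hwb ?_
      rw [abs_mul, abs_of_nonneg ht.1]
      exact mul_le_of_le_one_left (abs_nonneg _) ht.2
  have h0 : (0 : ℂ) ∈ C := Or.inl ⟨0, left_mem_Icc.2 zero_le_one, by simp⟩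
  have hwC : w ∈ C := Or.inr ⟨1, right_mem_Icc.2 zero_le_one, by apply Complex.ext <;> simp⟩
  have hψ0 : H.ψ 0 = 0 := by
    have := H.ψ_h (mem_ball_self one_pos)
    rwa [H.h_zero] at this
  have hcont : ContinuousOn (fun z => dist (H.ψ z) ζ₁) C :=
    (continuous_id.dist continuous_const).comp_continuousOn (H.ψ_diff.continuousOn.mono hCb)
  have hmem : r ∈ Icc (dist (H.ψ w) ζ₁) (dist (H.ψ 0) ζ₁) := by
    rw [hw, H.ψ_h hx, hψ0, dist_zero_left, h₁]
    exact ⟨hxr.le, hr.le⟩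
  obtain ⟨z, hz, hzr⟩ := hCp.intermediate_value hwC h0 hcont hmem
  refine ⟨H.ψ z, H.ψ_mem (hCb hz), hzr, ?_⟩
  rw [H.h_ψ (hCb hz)]
  rcases hz with ⟨t, ht, rfl⟩ | ⟨t, ht, rfl⟩
  · exact ⟨t, ht, Or.inl rfl⟩
  · exact ⟨t, ht, Or.inr rfl⟩

/-- Separation of the middle of the graph from the rest of the boundary. -/
theorem sep (H : Box A c g) : ∃ δ > 0, δ < 1 / 2 ∧ ∀ w ∈ box A g, |w.re| ≤ A / 4 → w.im < 0 →
    1 - δ < ‖H.ψ w‖ → ∀ x ∈ ball (0 : ℂ) 1, dist x (H.ψ w / (‖H.ψ w‖ : ℂ)) < δ →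
      |(H.h x).re| < A / 2 ∧ (H.h x).im < 0 := by
  set η := min (c / 8) (A / 16) with hη
  have hη0 : 0 < η := lt_min (by linarith [H.hc]) (by linarith [H.hA])
  have hηc : η ≤ c / 8 := min_le_left _ _
  have hηA : η ≤ A / 16 := min_le_right _ _
  obtain ⟨δ, hδ, hδ2, hla⟩ := P116.length_area hη0 (show (0 : ℝ) < 1 / 2 by norm_num)
  refine ⟨δ, hδ, hδ2, fun w hw hwA hwi hwδ x hx hxd => ?_⟩
  have hψw := mem_ball_zero_iff.1 (H.ψ_mem hw)
  set s := ‖H.ψ w‖ with hs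
  have hs0 : 0 < s := by linarith
  set ζ₁ := H.ψ w / (s : ℂ) with hζ₁
  have h₁ : ‖ζ₁‖ = 1 := by
    rw [hζ₁, norm_div, norm_real, Real.norm_of_nonneg hs0.le, div_self hs0.ne']
  obtain ⟨r, ⟨hrδ, hr2⟩, harc⟩ := hla H.h H.h_diff H.h_inj
    (fun y hy => ball_subset_closedBall (H.subset_ball (H.h_mem hy))) ζ₁
  have hwd : dist (H.ψ w) ζ₁ < r := by
    have e : H.ψ w - ζ₁ = ζ₁ * ((s - 1 : ℝ) : ℂ) := by
      have hs' : (s : ℂ) ≠ 0 := ofReal_ne_zero.2 hs0.ne'
      rw [hζ₁]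
      push_cast
      field_simp
    rw [dist_eq, e, norm_mul, h₁, one_mul, norm_real, Real.norm_eq_abs, abs_lt]
    constructor <;> linarith
  obtain ⟨y₀, hy₀, hy₀r, -⟩ := H.path_hit h₁ (by linarith) (H.ψ_mem hw) hwd
  set p := H.h y₀ with hp
  have hnear : ∀ y ∈ ball (0 : ℂ) 1, dist y ζ₁ = r → dist (H.h y) p < η := fun y hy hyr =>
    harc y ⟨hy, hyr⟩ y₀ ⟨hy₀, hy₀r⟩
  -- the arc reaches the boundary of the disc
  obtain ⟨q, hqp, hqb⟩ : ∃ q, dist q p ≤ η ∧ q ∉ box A g := by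
    by_contra hcon
    push Not at hcon
    have hK : IsCompact (H.ψ '' closedBall p η) :=
      (isCompact_closedBall p η).image_of_continuousOn
        (H.ψ_diff.continuousOn.mono fun z hz => hcon z hz)
    obtain ⟨z₀, hz₀, hmax⟩ := hK.exists_isMaxOn
      ⟨_, mem_image_of_mem _ (mem_closedBall_self hη0.le)⟩ continuous_norm.continuousOn
    obtain ⟨z₁, hz₁, rfl⟩ := hz₀
    have hlt := mem_ball_zero_iff.1 (H.ψ_mem (hcon z₁ hz₁))
    set τ := max ((1 + ‖H.ψ z₁‖) / 2) (1 - r / 2) with hτ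
    have hτ1 : τ < 1 := max_lt (by linarith) (by linarith)
    set f : ℝ → ℂ := fun θ => ζ₁ * (1 + (r : ℂ) * exp ((θ : ℂ) * I)) with hf
    have hfn : ∀ θ, dist (f θ) ζ₁ = r := fun θ => by
      rw [dist_eq, hf]
      simp only
      rw [mul_add, mul_one, add_sub_cancel_left, norm_mul, h₁, norm_mul, norm_exp_ofReal_mul_I,
        norm_real, Real.norm_of_nonneg (by linarith), one_mul, mul_one]
    have hπ : ‖f π‖ = 1 - r := by
      rw [hf]
      simp only
      rw [exp_pi_mul_I, norm_mul, h₁, one_mul,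
        show (1 : ℂ) + (r : ℂ) * -1 = ((1 - r : ℝ) : ℂ) by push_cast; ring, norm_real,
        Real.norm_of_nonneg (by linarith)]
    have h0 : ‖f 0‖ = 1 + r := by
      rw [hf]
      simp only
      rw [ofReal_zero, zero_mul, exp_zero, norm_mul, h₁, one_mul, mul_one,
        show (1 : ℂ) + (r : ℂ) = ((1 + r : ℝ) : ℂ) by push_cast; ring, norm_real,
        Real.norm_of_nonneg (by linarith)]
    obtain ⟨θ, -, hθ⟩ := intermediate_value_Icc' Real.pi_pos.le
      (by fun_prop : Continuous fun θ => ‖f θ‖).continuousOn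
      (show τ ∈ Icc ‖f π‖ ‖f 0‖ by
        rw [hπ, h0]
        exact ⟨by linarith [le_max_right ((1 + ‖H.ψ z₁‖) / 2) (1 - r / 2)], by linarith⟩)
    have hθ' : ‖f θ‖ = τ := hθ
    have hfb : f θ ∈ ball (0 : ℂ) 1 := mem_ball_zero_iff.2 (hθ' ▸ hτ1)
    have hm : f θ ∈ H.ψ '' closedBall p η :=
      ⟨H.h (f θ), mem_closedBall.2 (hnear _ hfb (hfn θ)).le, H.ψ_h hfb⟩
    have : τ ≤ ‖H.ψ z₁‖ := hθ' ▸ hmax hm
    linarith [le_max_left ((1 + ‖H.ψ z₁‖) / 2) (1 - r / 2)]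
  have hqin : |q.re| < A → |q.im| < c → False := fun h1 h2 =>
    hqb ⟨h1, h2.trans_le (H.low _ h1)⟩
  have hqre : |q.re - p.re| ≤ η ∧ |q.im - p.im| ≤ η := by
    rw [dist_eq] at hqp
    exact ⟨by simpa using (abs_re_le_norm (q - p)).trans hqp,
      by simpa using (abs_im_le_norm (q - p)).trans hqp⟩
  have hcomp : ∀ y ∈ ball (0 : ℂ) 1, dist y ζ₁ = r →
      |(H.h y).re - p.re| ≤ η ∧ |(H.h y).im - p.im| ≤ η := fun y hy hyr => by
    have := (hnear y hy hyr).le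
    rw [dist_eq] at this
    exact ⟨by simpa using (abs_re_le_norm (H.h y - p)).trans this,
      by simpa using (abs_im_le_norm (H.h y - p)).trans this⟩
  obtain ⟨hp1, hp2⟩ : |p.re| ≤ A / 4 + η ∧ p.im ≤ -(c - 3 * η) := by
    obtain ⟨y, hy, hyr, t, ht, hcase⟩ := H.path_hit h₁ (by linarith) (H.ψ_mem hw) hwd
    rw [H.h_ψ hw] at hcase
    obtain ⟨a1, a2⟩ := hcomp y hy hyr
    obtain ⟨b1, b2⟩ := hqre
    have htw : |t * w.re| ≤ A / 4 := by
      rw [abs_mul, abs_of_nonneg ht.1]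
      exact (mul_le_of_le_one_left (abs_nonneg _) ht.2).trans hwA
    rcases hcase with e | e
    · rw [e, ofReal_re] at a1
      rw [e, ofReal_im] at a2
      exact absurd (hqin (by rw [abs_le] at *; rw [abs_lt]; constructor <;> linarith [H.hA])
        (by rw [abs_le] at *; rw [abs_lt]; constructor <;> linarith [H.hc])) id
    · rw [e] at a1 a2
      simp only at a1 a2
      have hq1 : |q.re| < A := by
        rw [abs_le] at *
        rw [abs_lt]
        constructor <;> linarith [H.hA]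
      have hq2 : c ≤ |q.im| := not_lt.1 (hqin hq1)
      have htim : t * w.im ≤ 0 := mul_nonpos_of_nonneg_of_nonpos ht.1 hwi.le
      refine ⟨by rw [abs_le] at *; constructor <;> linarith, ?_⟩
      rw [abs_le] at a2 b2
      rcases le_abs.1 hq2 with h | h <;> linarith [H.hc]
  obtain ⟨y, hy, hyr, t, ht, hcase⟩ := H.path_hit h₁ (r := r) (by linarith) hx (hxd.trans hrδ)
  obtain ⟨a1, a2⟩ := hcomp y hy hyr
  rcases hcase with e | e
  · rw [e, ofReal_im, abs_le] at a2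
    linarith [H.hc]
  · rw [e] at a1 a2
    simp only at a1 a2
    rw [abs_le] at a1 a2 hp1
    refine ⟨abs_lt.2 ⟨by linarith [H.hA], by linarith [H.hA]⟩, ?_⟩
    by_contra hcon
    nlinarith [mul_nonneg ht.1 (not_lt.1 hcon), H.hc]

end Box

end Vale.Agent.P142.Graph
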